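import Vale.Agent.P281.H747.HKT.ValT
import Vale.Agent.P281.H864.HK.Ratio
import Vale.Agent.P281.H83.HKT.Defs

/-!
# P281, project T-HKT, block RatioT (helper864): types in the products with `θ`
-/

open Set Filter Metric MeasureTheory
open scoped Topology ContDiff ComplexConjugate ComplexOrder

noncomputable section

namespace Vale.Agent.P281.H864.HKT

open Vale.Agent.P281.H64 (Cm)
open Vale.Agent.P281.H64.TK.TS (L1 L2)
open Vale.Agent.P281.H83.HK (tf cj c20 c02 c11 kf W W3 abc)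
open Vale.Agent.P281.H747.HKT (Wt th dtb abcm exists_restr exists_restr3 tf_pullr kf_pullr
  posDef_pullr skewr)
open Vale.Agent.P281.H864.HK (tf_alt' c20_cj W3_zero W_type)

variable {d m a : ℕ}

theorem decomp' {b : L2 d} (hb : ∀ u v, b u v = -b v u) :
    b = tf (c20 b) + kf (H624.HK.hm b) + cj (tf ((c02 b).map conj)) := by
  ext u v
  rw [H624.HK.decomp hb u v, ContinuousLinearMap.add_apply, ContinuousLinearMap.add_apply,
    ContinuousLinearMap.add_apply, ContinuousLinearMap.add_apply, H624.HK.cj_apply,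
    H624.HK.tf_apply, H624.HK.kf_apply, H624.HK.tf_apply]
  simp only [H624.HK.hm, Matrix.smul_apply, smul_eq_mul, map_sum, map_mul, Complex.conj_conj,
    Matrix.map_apply, Finset.mul_sum, ← Finset.sum_add_distrib]
  refine Finset.sum_congr rfl fun j _ => Finset.sum_congr rfl fun k _ => ?_
  linear_combination (c11 b j k * (u j * conj (v k) - v j * conj (u k))) * Complex.I_sq

/-- The linear map of a matrix. -/
def mv (J : Matrix (Fin d) (Fin m) ℂ) : Cm m →L[ℝ] Cm d :=
  LinearMap.toContinuousLinearMap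
    { toFun := fun v => J.mulVec v
      map_add' := fun u v => Matrix.mulVec_add J u v
      map_smul' := fun c u => Matrix.mulVec_smul J c u }

/-- The restriction of a form. -/
def rs (J : Matrix (Fin d) (Fin m) ℂ) (b : L2 d) : L2 m := b.bilinearComp (mv J) (mv J)

theorem rs_apply (J : Matrix (Fin d) (Fin m) ℂ) (b : L2 d) (p q : Cm m) :
    rs J b p q = b (J.mulVec p) (J.mulVec q) := rfl

theorem rs_tf (J : Matrix (Fin d) (Fin m) ℂ) (s : Matrix (Fin d) (Fin d) ℂ) :
    rs J (tf s) = tf (J.transpose * s * J) := by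
  ext p q
  rw [rs_apply, tf_pullr]

theorem rs_cj (J : Matrix (Fin d) (Fin m) ℂ) (s : Matrix (Fin d) (Fin d) ℂ) :
    rs J (cj (tf s)) = cj (tf (J.transpose * s * J)) := by
  ext p q
  rw [rs_apply, H624.HK.cj_apply, H624.HK.cj_apply, tf_pullr]

theorem rs_kf (J : Matrix (Fin d) (Fin m) ℂ) (w : Matrix (Fin d) (Fin d) ℂ) :
    rs J (kf w) = kf (J.transpose * w * J.map conj) := by
  ext p q
  rw [rs_apply, kf_pullr]

theorem rs_alt (J : Matrix (Fin d) (Fin m) ℂ) {b : L2 d} (hb : ∀ u v, b u v = -b v u)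
    (u v : Cm m) : rs J b u v = -rs J b v u := by
  rw [rs_apply, rs_apply, hb]

theorem c20_add' (b b' : L2 d) : c20 (b + b') = c20 b + c20 b' := by
  ext j k
  simp only [c20, Matrix.of_apply, Matrix.add_apply, ContinuousLinearMap.add_apply]
  ring

theorem c20_rs (J : Matrix (Fin d) (Fin m) ℂ) {b : L2 d} (hb : ∀ u v, b u v = -b v u) :
    c20 (rs J b) = J.transpose * c20 b * J := by
  have h1 : rs J b = rs J (tf (c20 b)) + rs J (kf (H624.HK.hm b)) +
      rs J (cj (tf ((c02 b).map conj))) := by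
    conv_lhs => rw [decomp' hb]
    rfl
  rw [h1, rs_tf, rs_kf, rs_cj, c20_add', c20_add', H624.HK.c20_tf, H624.HK.c20_kf, c20_cj,
    add_zero, add_zero]

/-- The restriction to the kernel of `u`. -/
theorem Wt_restr (u : Matrix (Fin a) (Fin (m + a)) ℂ) (b : Fin m → L2 (m + a)) :
    Wt b u = 0 ∨ ∃ (J : Matrix (Fin (m + a)) (Fin m) ℂ) (κ : ℝ), 0 < κ ∧ u * J = 0 ∧
      (∀ v, J.mulVec v = 0 → v = 0) ∧ Wt b u * (κ : ℂ) = W (fun i => rs J (b i)) := by
  by_cases hu : LinearIndependent ℂ u.row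
  · obtain ⟨J, κ, h1, h2, h3, -, h4, -⟩ := exists_restr hu
    exact Or.inr ⟨J, κ, h1, h2, h3, h4 b (fun i => rs J (b i)) fun i p q => rfl⟩
  · exact Or.inl (H747.HKT.Wt_dep b hu)

/-- **Types.** -/
theorem Wt_type (u : Matrix (Fin a) (Fin (m + a)) ℂ) {b : Fin m → L2 (m + a)}
    {J : Finset (Fin m)} (hJ : 2 * J.card = m) (s : Fin m → Matrix (Fin (m + a)) (Fin (m + a)) ℂ)
    (hb : ∀ i ∈ J, b i = cj (tf (s i))) {k₀ : Fin m} (hk : k₀ ∉ J)
    (hk₀ : ∀ p q, b k₀ p q = -b k₀ q p) (h0 : c20 (b k₀) = 0) : Wt b u = 0 := by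
  rcases Wt_restr u b with h | ⟨G, κ, hκ, -, -, h⟩
  · exact h
  · have h1 : W (fun i => rs G (b i)) = 0 := by
      refine W_type hJ (fun i => G.transpose * s i * G) (fun i hi => ?_) hk ?_
      · show rs G (b i) = _
        rw [hb i hi, rs_cj]
      · show c20 (rs G (b k₀)) = 0
        rw [c20_rs G hk₀, h0, Matrix.mul_zero, Matrix.zero_mul]
    rw [h1] at h
    exact (mul_eq_zero.1 h).resolve_right (by exact_mod_cast hκ.ne')

/-- The forms `u_j ∧ u_k` do not contribute. -/
theorem Wt_uu (u : Matrix (Fin a) (Fin (m + a)) ℂ) {b : Fin m → L2 (m + a)} {k₀ : Fin m}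
    (μ : Matrix (Fin a) (Fin a) ℂ) (h0 : b k₀ = tf (H83.HKT.uu μ u)) : Wt b u = 0 := by
  rcases Wt_restr u b with h | ⟨G, κ, hκ, hG, -, h⟩
  · exact h
  · have h1 : W (fun i => rs G (b i)) = 0 := by
      have h2 : rs G (b k₀) = 0 := by
        rw [h0, rs_tf]
        have h3 : G.transpose * H83.HKT.uu μ u * G = 0 := by
          rw [H83.HKT.uu, Matrix.mul_assoc, Matrix.mul_assoc, hG, Matrix.mul_zero,
            Matrix.mul_zero]
        rw [h3]
        ext p q
        rw [H624.HK.tf_apply]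
        simp
      rw [H864.HK.W_eq]
      exact H864.HK.Wv_zero _ _ k₀ h2
    rw [h1] at h
    exact (mul_eq_zero.1 h).resolve_right (by exact_mod_cast hκ.ne')

/-- Only the `(2,0)`-part of `x` matters in `x ∧ conj s ∧ ω^(m-2) ∧ θ`. -/
theorem Wt_zero (hm : 2 ≤ m) (u : Matrix (Fin a) (Fin (m + a)) ℂ)
    {s w : Matrix (Fin (m + a)) (Fin (m + a)) ℂ} (hs : s.transpose = -s) (hw : w.PosDef)
    {x : L2 (m + a)} (hx : ∀ p q, x p q = -x q p) (h0 : c20 x = 0) :
    Wt (m := m) (abcm x (cj (tf s)) (kf w)) u = 0 := by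
  rcases Wt_restr u (abcm (m := m) x (cj (tf s)) (kf w)) with h | ⟨G, κ, hκ, -, hG, h⟩
  · exact h
  · have h1 : W (fun i => rs G (abcm (m := m) x (cj (tf s)) (kf w) i)) = 0 := by
      have h2 := W3_zero H747.HK.wVal hm (posDef_pullr (J := G) hw hG) (skewr (J := G) hs)
        (a := rs G x) (rs_alt G hx) (by
          rw [c20_rs G hx, h0, Matrix.mul_zero, Matrix.zero_mul])
      rw [W3] at h2
      rw [← h2]
      congr 1
      funext i
      unfold abcm abc
      split_ifs
      · rfl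
      · exact rs_cj G s
      · exact rs_kf G w
    rw [h1] at h
    exact (mul_eq_zero.1 h).resolve_right (by exact_mod_cast hκ.ne')

end Vale.Agent.P281.H864.HKT
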