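import Vale.Agent.P281.H864.HKT.Int
import Vale.Agent.P281.H83.HKT.Spec

/-!
# P281, project T-HKT, block RatioT (helper864)
-/

open Set Filter Metric MeasureTheory
open scoped Topology ContDiff ComplexConjugate ComplexOrder

noncomputable section

namespace Vale.Agent.P281.H864.HKT

open Vale.Agent.P281.H64 (Cm)
open Vale.Agent.P281.H64.TK Vale.Agent.P281.H303.K
open Vale.Agent.P281.H64.TK.TS (L1 L2 F1On F2On Cl2 Exact IsD1 Pull2 Dif Real2 Tr d1 PullStmt)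
open Vale.Agent.P281.H83.HK (tf cj c20 ts cjs kw kf Hol2 HTStmt FormsStmt)
open Vale.Agent.P281.H83.HKT (thj uu bT tT volT ThRel W4 thl Hol1 GenU dt RatioTStmt FormsTStmt)
open Vale.Agent.P281.H747.HKT (Wt th abcm W4_eq thl_eq Wt_det Wt_dep dt_eq dtb_dep)
open Vale.Agent.P281.H864.HK (W W_eq W_perm W_conj W_add W_smul Wint wint_class rep int_congr
  int_conj Harm hf card_hf)
open Vale.Agent.P281.H191.HK (exact_self)

/-- In odd rank `dt` vanishes. -/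
theorem dt_odd {m a : ℕ} (ho : Odd m) (u : Matrix (Fin a) (Fin (m + a)) ℂ)
    {s : Matrix (Fin (m + a)) (Fin (m + a)) ℂ} (hs : s.transpose = -s) : dt u s = 0 := by
  have h1 : (Matrix.fromBlocks s u.transpose (-u) (0 : Matrix (Fin a) (Fin a) ℂ)).transpose =
      -Matrix.fromBlocks s u.transpose (-u) (0 : Matrix (Fin a) (Fin a) ℂ) := by
    rw [Matrix.fromBlocks_transpose, Matrix.fromBlocks_neg, hs, Matrix.transpose_neg,
      Matrix.transpose_transpose, Matrix.transpose_zero, neg_neg, neg_zero]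
  have h2 : dt u s = -dt u s := by
    have h3 : (-1 : ℂ) ^ Fintype.card (Fin (m + a) ⊕ Fin a) = -1 := by
      have h4 : Odd (Fintype.card (Fin (m + a) ⊕ Fin a)) := by
        rw [Fintype.card_sum, Fintype.card_fin, Fintype.card_fin, Nat.odd_iff]
        have := Nat.odd_iff.1 ho
        omega
      exact h4.neg_one_pow
    unfold dt
    conv_lhs => rw [← Matrix.det_transpose, h1, Matrix.det_neg, h3]
    ring
  have h3 : (2 : ℂ) * dt u s = 0 := by linear_combination h2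
  exact (mul_eq_zero.1 h3).resolve_left two_ne_zero

section
variable {m a : ℕ} {E Γ : Type} [TopologicalSpace E] [Group Γ] [MulAction Γ E]
  [ContinuousConstSMul Γ E] [Subsingleton Γ] {S : Sheets (m + a) E Γ}
  {u : Fin S.N → Cm (m + a) → Matrix (Fin a) (Fin (m + a)) ℂ}
  {s : Fin S.N → Cm (m + a) → Matrix (Fin (m + a)) (Fin (m + a)) ℂ}

theorem volT_odd (ho : Odd m) (hs : Hol2 S s) : volT S u s = 0 := by
  have : S.int (fun i z => ((‖dt (u i z) (s i z)‖ : ℝ) : ℂ)) = S.int fun _ _ => 0 :=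
    int_congr S fun i z hz => by rw [dt_odd ho _ (hs.alt i z hz)]; simp
  rw [volT, this]
  simp [Sheets.int]

/-- `∫ s^n ∧ conj s^n ∧ θ` is the volume. -/
theorem WT_vol {κ : ℝ} (hκ : ∀ (u : Matrix (Fin a) (Fin (m + a)) ℂ)
      (s : Matrix (Fin (m + a)) (Fin (m + a)) ℂ), s.transpose = -s →
      Wt (fun i : Fin m => if 2 * i.val < m then tf s else cj (tf s)) u =
        ((κ * ‖dt u s‖ : ℝ) : ℂ)) (hs : Hol2 S s) {n : ℕ} (hm : m = 2 * n)
    (b : Fin S.N → Cm (m + a) → L2 (m + a)) :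
    WT S u (fm (ts s) b (cjs (ts s)) n) = κ * ((volT S u s : ℝ) : ℂ) := by
  have h2 : S.int (fun i z => ((‖dt (u i z) (s i z)‖ : ℝ) : ℂ)) = ((volT S u s : ℝ) : ℂ) := by
    have h3 := int_conj (S := S) (fun i z => ((‖dt (u i z) (s i z)‖ : ℝ) : ℂ))
      (fun i z => ((‖dt (u i z) (s i z)‖ : ℝ) : ℂ)) fun i z _ => (Complex.conj_ofReal _).symm
    exact (Complex.conj_eq_iff_re.1 h3.symm).symm
  rw [← h2]
  have h4 : WT S u (fm (ts s) b (cjs (ts s)) n) =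
      S.int fun i z => (κ : ℂ) * ((‖dt (u i z) (s i z)‖ : ℝ) : ℂ) := by
    refine int_congr S fun i z hz => ?_
    rw [← Complex.ofReal_mul, ← hκ (u i z) (s i z) (hs.alt i z hz), fm_ev]
    congr 1
    funext k
    unfold fm
    by_cases hk : 2 * k.val < m
    · rw [if_pos hk, if_pos (by omega), if_pos hk]
      rfl
    · rw [if_neg hk, if_neg hk]
      rfl
  rw [h4]
  unfold Sheets.int
  rw [Finset.mul_sum]
  exact Finset.sum_congr rfl fun i _ => integral_const_mul _ _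

end

section
variable {m a : ℕ} {E Γ : Type} [TopologicalSpace E] [Group Γ] [MulAction Γ E]
  [ContinuousConstSMul Γ E] [Subsingleton Γ] {S : Sheets (m + a) E Γ}
  {u : Fin S.N → Cm (m + a) → Matrix (Fin a) (Fin (m + a)) ℂ}
  {s w : Fin S.N → Cm (m + a) → Matrix (Fin (m + a)) (Fin (m + a)) ℂ}

theorem conj1 {n : ℕ} (hm : m = 2 * n) (γ : Fin S.N → Cm (m + a) → L2 (m + a)) :
    WT S u (fm (ts s) (ts s) (cjs γ) 0) = conj (WT S u (fm (ts s) γ (cjs (ts s)) 0)) := by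
  rw [← WT_perm (fm (ts s) γ (cjs (ts s)) 0) Fin.revPerm]
  refine WT_conj fun l i z hz p q => ?_
  have hr : (Fin.revPerm l).val = m - 1 - l.val := by
    rw [Fin.revPerm_apply, Fin.val_rev]
    omega
  simp only [fm, Nat.not_lt_zero, if_false, hr]
  by_cases hl : 2 * l.val < m
  · rw [if_pos hl, if_neg (by omega)]
    show ts s i z p q = conj (conj (ts s i z p q))
    rw [Complex.conj_conj]
  · rw [if_neg hl, if_pos (by omega)]
    rfl

theorem bT_symm (hm : 2 ≤ m) (x y c : Fin S.N → Cm (m + a) → L2 (m + a)) :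
    bT S u x y c = bT S u y x c := by
  unfold bT
  congr 1
  funext i z
  exact H747.HKT.W4_symm (by omega) _ _ _ _

theorem conj2 (hm : 2 ≤ m) (hr : Real2 S (kw w)) (γ : Fin S.N → Cm (m + a) → L2 (m + a)) :
    bT S u (ts s) (cjs γ) (kw w) = conj (bT S u γ (cjs (ts s)) (kw w)) := by
  rw [bT_symm hm γ, bT_eq hm, bT_eq hm]
  refine WT_conj fun l i z hz p q => ?_
  unfold g3
  split_ifs
  · show ts s i z p q = conj (conj (ts s i z p q))
    rw [Complex.conj_conj]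
  · rfl
  · exact (Complex.conj_eq_iff_im.2 (hr i z hz p q)).symm

variable {E' Γ' : Type} [TopologicalSpace E'] [Group Γ'] [MulAction Γ' E']
    {S' : Sheets (m + a) E' Γ'} {u' : Fin S'.N → Cm (m + a) → Matrix (Fin a) (Fin (m + a)) ℂ}
    {κ κ' : ℝ} {τ : E → E'}

theorem rel1 (hm : 0 < m) (h : ThRel S u κ S' u' κ' τ)
    {x y : Fin S.N → Cm (m + a) → L2 (m + a)} {x' y' : Fin S'.N → Cm (m + a) → L2 (m + a)}
    (e e' : _) (hx : Cl2 S x) (hy : Cl2 S y) (he : Cl2 S e) (hx' : Cl2 S' x') (hy' : Cl2 S' y')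
    (he' : Cl2 S' e') (px : Pull2 S S' τ x x') (py : Pull2 S S' τ y y') :
    (κ' : ℂ) * WT S u (fm e x y 0) = (κ : ℂ) * WT S' u' (fm e' x' y' 0) := by
  refine WT_rel hm h (fm_prop he hx hy 0) (fm_prop he' hx' hy' 0) fun l => ?_
  unfold fm
  rw [if_neg (Nat.not_lt_zero _), if_neg (Nat.not_lt_zero _)]
  split_ifs
  · exact px
  · exact py

theorem rel2 (hm : 2 ≤ m) (h : ThRel S u κ S' u' κ' τ)
    (hθ : ∀ j, Cl2 S (fun i z => thj (u i z) j))
    {x y k k' : Fin S.N → Cm (m + a) → L2 (m + a)}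
    {x' y' c' : Fin S'.N → Cm (m + a) → L2 (m + a)}
    (hx : Cl2 S x) (hy : Cl2 S y) (hk : Cl2 S k) (hk' : Cl2 S k') (hx' : Cl2 S' x')
    (hy' : Cl2 S' y') (hc' : Cl2 S' c') (px : Pull2 S S' τ x x') (py : Pull2 S S' τ y y')
    (pk : Pull2 S S' τ k c') (he : Exact S (fun i z => k i z - k' i z)) :
    (κ' : ℂ) * bT S u x y k' = (κ : ℂ) * bT S' u' x' y' c' := by
  have e1 : WT S u (g3 x y k') = WT S u (g3 x y k) := by
    refine (WT_class hθ (fun l => g3_prop hx hy hk l) (fun l => g3_prop hx hy hk' l)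
      fun l => ?_).symm
    unfold g3
    split_ifs
    · exact exact_self _
    · exact exact_self _
    · exact he
  rw [bT_eq hm, bT_eq hm, e1]
  refine WT_rel (by omega) h (fun l => g3_prop hx hy hk l) (fun l => g3_prop hx' hy' hc' l)
    fun l => ?_
  unfold g3
  split_ifs
  · exact px
  · exact py
  · exact pk

end

/-- The conclusion. -/
theorem fin_alg {n m : ℕ} (hmn : m = 2 * n) {κ₀ κ κ' V V' b b' : ℝ} (hκ₀ : κ₀ ≠ 0) (hκ : κ ≠ 0)
    (hκ' : κ' ≠ 0) {c c' : ℂ} (hc0 : c ≠ 0)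
    (C1 : (κ' : ℂ) * (c ^ n * (κ₀ * V)) = (κ : ℂ) * (c' ^ n * (κ₀ * V')))
    (C2 : (κ' : ℂ) * (c * b) = (κ : ℂ) * (c' * b')) :
    (V / κ) ^ 2 * (b' / κ') ^ m = (V' / κ') ^ 2 * (b / κ) ^ m := by
  have hκ₀c : (κ₀ : ℂ) ≠ 0 := by exact_mod_cast hκ₀
  have hκc : (κ : ℂ) ≠ 0 := by exact_mod_cast hκ
  have hκc' : (κ' : ℂ) ≠ 0 := by exact_mod_cast hκ'
  have F1 : c ^ n * ((V : ℂ) / κ) = c' ^ n * ((V' : ℂ) / κ') := by
    have h1 : (κ₀ : ℂ) * ((κ' : ℂ) * (c ^ n * V)) = (κ₀ : ℂ) * ((κ : ℂ) * (c' ^ n * V')) := by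
      linear_combination C1
    have h2 := mul_left_cancel₀ hκ₀c h1
    field_simp
    linear_combination h2
  have F2 : c * ((b : ℂ) / κ) = c' * ((b' : ℂ) / κ') := by
    field_simp
    linear_combination C2
  have F3 : (c * ((b : ℂ) / κ)) ^ n = (c' * ((b' : ℂ) / κ')) ^ n := by rw [F2]
  rw [mul_pow, mul_pow] at F3
  have F4 : c ^ n * (((V : ℂ) / κ) * ((b' : ℂ) / κ') ^ n) =
      c ^ n * (((V' : ℂ) / κ') * ((b : ℂ) / κ) ^ n) := by
    linear_combination ((b' : ℂ) / κ') ^ n * F1 - ((V' : ℂ) / κ') * F3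
  have F5 := mul_left_cancel₀ (pow_ne_zero n hc0) F4
  have F6 : (V / κ) * (b' / κ') ^ n = (V' / κ') * (b / κ) ^ n := by exact_mod_cast F5
  have D5 : (b' / κ') ^ m = ((b' / κ') ^ n) ^ 2 := by rw [hmn, mul_comm 2 n, pow_mul]
  have D6 : (b / κ) ^ m = ((b / κ) ^ n) ^ 2 := by rw [hmn, mul_comm 2 n, pow_mul]
  rw [D5, D6, ← mul_pow, ← mul_pow, F6]

/-- **RatioT**, from the regularity of `θ_j`. -/
theorem ratioT (hHT : HTStmt) (hFo : FormsStmt) (hFT : FormsTStmt) (hPull : PullStmt) :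
    RatioTStmt := by
  intro a d E Γ _ _ _ _ _ _ _ S E' Γ' _ _ _ _ _ _ _ S' τ w w' u u' κ κ' s s' α k had hτ hw hw'
    hs hs' hκ hκ' hrel hα hαp hk hkp hke hne
  obtain ⟨m, rfl⟩ : ∃ m, d = m + a := ⟨d - a, by omega⟩
  have hm2 : 2 ≤ m := by omega
  have hm0 : 0 < m := by omega
  have hd : 2 ≤ m + a := by omega
  have hd0 : 0 < m + a := by omega
  rw [Nat.add_sub_cancel]
  rcases Nat.even_or_odd m with he | ho
  swap
  · rw [volT_odd ho hs.form, volT_odd ho hs'.form]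
    ring
  obtain ⟨n, hn⟩ := he
  have hmn : m = 2 * n := by omega
  obtain ⟨κ₀, hκ₀, hdet⟩ := Wt_det m
  have hdet' : ∀ (u : Matrix (Fin a) (Fin (m + a)) ℂ)
      (s : Matrix (Fin (m + a)) (Fin (m + a)) ℂ), s.transpose = -s →
      Wt (fun i : Fin m => if 2 * i.val < m then tf s else cj (tf s)) u =
        ((κ₀ * ‖dt u s‖ : ℝ) : ℂ) := by
    intro u s hs
    by_cases hu : LinearIndependent ℂ u.row
    · exact hdet a u s hu hs
    · rw [Wt_dep _ hu, dt_eq, dtb_dep s hu, norm_zero, mul_zero, Complex.ofReal_zero]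
  -- the forms
  obtain ⟨f1, f2, f3'⟩ := hFo (m + a) E Γ S hd0
  obtain ⟨g1, g2, g3'⟩ := hFo (m + a) E' Γ' S' hd0
  have hθ : ∀ j, Cl2 S (fun i z => thj (u i z) j) :=
    fun j => ((hFT a (m + a) E Γ S u hd0 hs.one).1 j).1
  have hθ' : ∀ j, Cl2 S' (fun i z => thj (u' i z) j) :=
    fun j => ((hFT a (m + a) E' Γ' S' u' hd0 hs'.one).1 j).1
  have cs := f1 s hs.form
  have cs' := g1 s' hs'.form
  have ccs := f3' _ cs
  have ccs' := g3' _ cs'
  obtain ⟨cw, rw⟩ := f2 w hw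
  obtain ⟨cw', rw'⟩ := g2 w' hw'
  -- the pull-back of `s` to `E'`
  obtain ⟨hτ', hP1, hP2, -⟩ := hPull (m + a) E' Γ' S' E Γ S τ.symm hd0
    (hPull (m + a) E Γ S E' Γ' S' τ hd0 hτ).1
  obtain ⟨γ, hγ, hγp⟩ := hP1 (ts s) cs
  have hγp' : Pull2 S S' τ (ts s) γ := by
    have := hP2 γ (ts s) hγ cs hγp
    rwa [Homeomorph.symm_symm] at this
  -- the harmonic parts
  obtain ⟨h, hh, hH⟩ := hHT (m + a) E Γ S w α hd hw hα
  obtain ⟨h', hh', hH'⟩ := hHT (m + a) E' Γ' S' w' γ hd hw' hγ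
  have hHs : Harm S α h := fun ε hε => by
    obtain ⟨β, b1, -, b3⟩ := hH ε hε
    exact ⟨β, b1, b3⟩
  have hHs' : Harm S' γ h' := fun ε hε => by
    obtain ⟨β, b1, -, b3⟩ := hH' ε hε
    exact ⟨β, b1, b3⟩
  obtain ⟨c, μ, -, hc⟩ := hs.span2 h hh
  obtain ⟨c', μ', -, hc'⟩ := hs'.span2 h' hh'
  -- the volumes
  have v1 := WT_vol (u := u) hdet' hs.form hmn α
  have v2 := WT_vol (u := u') hdet' hs'.form hmn γ
  have A1 : WT S u (fm (ts s) α (cjs (ts s)) 0) = c ^ n * (κ₀ * ((volT S u s : ℝ) : ℂ)) := by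
    rw [stepA hmn hθ hα cs ccs (f1 h hh) hHs hc n le_rfl, v1]
  have A2 : WT S' u' (fm (ts s') γ (cjs (ts s')) 0) =
      c' ^ n * (κ₀ * ((volT S' u' s' : ℝ) : ℂ)) := by
    rw [stepA hmn hθ' hγ cs' ccs' (g1 h' hh') hHs' hc' n le_rfl, v2]
  have B1 : bT S u α (cjs (ts s)) (kw w) = c * bT S u (ts s) (cjs (ts s)) (kw w) :=
    stepB hm2 hθ hα ccs cw (f1 h hh) hHs hc (fun i z hz => hs.form.alt i z hz)
      fun i z hz => hw.posDef i z hz
  have B2 : bT S' u' γ (cjs (ts s')) (kw w') = c' * bT S' u' (ts s') (cjs (ts s')) (kw w') :=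
    stepB hm2 hθ' hγ ccs' cw' (g1 h' hh') hHs' hc' (fun i z hz => hs'.form.alt i z hz)
      fun i z hz => hw'.posDef i z hz
  -- conjugates
  have pcj : Pull2 S S' τ (cjs (ts s)) (cjs γ) := fun i j z hz z' hz' ψ hψ p q => by
    show conj (ts s i z p q) = conj (γ j z' _ _)
    rw [hγp' i j z hz z' hz' ψ hψ p q]
  have ccγ := g3' _ hγ
  -- the comparisons
  have C1 : (κ' : ℂ) * WT S u (fm (ts s) α (cjs (ts s)) 0) =
      (κ : ℂ) * conj (WT S' u' (fm (ts s') γ (cjs (ts s')) 0)) :=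
    (rel1 hm0 hrel (ts s) (ts s') hα ccs cs cs' ccγ cs' hαp pcj).trans
      (congrArg (fun x => (κ : ℂ) * x) (conj1 hmn γ))
  have C2 : (κ' : ℂ) * bT S u α (cjs (ts s)) (kw w) =
      (κ : ℂ) * conj (bT S' u' γ (cjs (ts s')) (kw w')) :=
    (rel2 hm2 hrel hθ hα ccs hk cw cs' ccγ cw' hαp pcj hkp hke).trans
      (congrArg (fun x => (κ : ℂ) * x) (conj2 hm2 rw' γ))
  have r1 := Complex.conj_eq_iff_re.1 (conj2 (u := u) (s := s) hm2 rw (ts s)).symm
  have r2 := Complex.conj_eq_iff_re.1 (conj2 (u := u') (s := s') hm2 rw' (ts s')).symm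
  rw [← r1] at B1
  rw [← r2] at B2
  rw [A1, A2] at C1
  rw [B1, B2] at C2
  rw [B1] at hne
  have hc0 : c ≠ 0 := left_ne_zero_of_mul hne
  simp only [map_mul, map_pow, Complex.conj_ofReal] at C1 C2
  exact fin_alg hmn hκ₀.ne' hκ.ne' hκ'.ne' hc0 C1 C2

end Vale.Agent.P281.H864.HKT
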