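import Vale.Agent.P281.H864.HKT.Int
import Vale.Agent.P281.H594.HK.Per0
import Vale.Agent.P281.H747.TS.Mk
import Vale.Agent.P281.H83.HK.Spec

/-!
# P281, project T-HKT, RADC, block R7 (helper864): the radical is the kernel of the restriction to
a fibre
-/

open Set Filter Metric MeasureTheory
open scoped Topology ContDiff ComplexConjugate ComplexOrder

noncomputable section

namespace Vale.Agent.P281.H864.HKT

open Vale.Agent.P281.H64 (Cm)
open Vale.Agent.P281.H64.TK Vale.Agent.P281.H303.K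
open Vale.Agent.P281.H64.TK.TS (L1 L2 F1On F2On Cl2 Exact IsD1 Pull2 Dif Real2 Tr d1 Mark2)
open Vale.Agent.P281.H83.HK (tf cj c20 ts cjs kw kf Hol2 bW HTStmt HIStmt PosStmt FormsStmt)
open Vale.Agent.P281.H83.HKT (bT RatRad)
open Vale.Agent.P281.H864.HK (int_conj Harm)

theorem tf_smul {d : ℕ} (c : ℂ) (x : Matrix (Fin d) (Fin d) ℂ) : tf (c • x) = c • tf x := by
  ext p q
  rw [smul_apply, smul_apply, H624.HK.tf_apply, H624.HK.tf_apply, smul_eq_mul, Finset.mul_sum]
  refine Finset.sum_congr rfl fun j _ => ?_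
  rw [Finset.mul_sum]
  refine Finset.sum_congr rfl fun k _ => ?_
  rw [Matrix.smul_apply, smul_eq_mul]
  ring

section fibre
variable {m r : ℕ} {H Γ' : Type} [TopologicalSpace H] [T2Space H] [PreconnectedSpace H]
  [Nonempty H] [Group Γ'] [Subsingleton Γ'] [MulAction Γ' H] [ContinuousConstSMul Γ' H]
  {S' : Sheets m H Γ'} {w' s' : Fin S'.N → Cm m → Matrix (Fin m) (Fin m) ℂ}
  {α : Fin S'.N → Cm m → L2 m}

/-- A real closed form orthogonal to `w`, `s` and to itself, with the `(2,0)`-part `c s`, is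
exact. -/
theorem exact_of_orth (hHI : HIStmt) (hPos : PosStmt) (hFo : FormsStmt) (hm : 2 ≤ m)
    (hw : Kah S' w') (hs : Hol2 S' s') (hne : ∃ i, ∃ z ∈ ball (0 : Cm m) 3, s' i z ≠ 0)
    (hα : Cl2 S' α) (hr : Real2 S' α) {c : ℂ} (hH : Harm S' α (fun j y => c • s' j y))
    (h1 : bW S' α (kw w') (kw w') = 0) (h2 : bW S' α (ts s') (kw w') = 0)
    (h3 : (bW S' α α (kw w')).re = 0) : Exact S' α := by
  have hm0 : 0 < m := by omega
  obtain ⟨f1, f2, f3⟩ := hFo m H Γ' S' hm0
  obtain ⟨cw, rw'⟩ := f2 w' hw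
  have cs := f1 s' hs
  have hts : ∀ j y, ts (fun j y => c • s' j y) j y = c • ts s' j y := fun j y => tf_smul c (s' j y)
  have hh : Cl2 S' (ts fun j y => c • s' j y) := by
    have e : (ts fun j y => c • s' j y) = fun j y => c • ts s' j y := funext₂ hts
    rw [e]
    exact H740.TS.cl2_smul c cs
  have hB : ∀ s'', Hol2 S' s'' → bW S' α (cjs (ts s'')) (kw w') =
      c * bW S' (ts s') (cjs (ts s'')) (kw w') := fun s'' hs'' =>
    H864.HK.stepB hm0 hα (f3 _ (f1 s'' hs'')) cw hh hH (fun i z _ => hts i z)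
      fun i z hz a ha h0 => H864.HK.W3_zero H747.HK.wVal hm (hw.posDef i z hz)
        (hs''.alt i z hz) ha h0
  have hC : ∀ s'' : Fin S'.N → Cm m → Matrix (Fin m) (Fin m) ℂ, bW S' α (ts s'') (kw w') =
      conj (bW S' α (cjs (ts s'')) (kw w')) := by
    intro s''
    refine int_conj _ _ fun i z hz => ?_
    refine H864.HK.W3_conj (fun u v => ?_) (fun u v => ?_) fun u v => ?_
    · exact (Complex.conj_eq_iff_im.2 (hr i z hz u v)).symm
    · show ts s'' i z u v = conj (conj (ts s'' i z u v))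
      rw [Complex.conj_conj]
    · exact (Complex.conj_eq_iff_im.2 (rw' i z hz u v)).symm
  have hc : c = 0 := by
    have h4 : bW S' α (cjs (ts s')) (kw w') = 0 := by
      have h5 := hC s'
      rw [h2] at h5
      have h6 := congrArg conj h5
      rw [Complex.conj_conj, map_zero] at h6
      exact h6.symm
    rw [hB s' hs] at h4
    refine (mul_eq_zero.1 h4).resolve_right fun h0 => ?_
    have h5 := ((hPos m H Γ' S' w' hm hw).2 s' s' hs hs).2.2 hne
    rw [h0] at h5
    simp at h5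
  have h4 := hHI m H Γ' S' w' α hm hw hα hr h1 fun s'' hs'' => by
    rw [hC, hB s'' hs'', hc, zero_mul, map_zero]
  exact h4.2 h3

end fibre

variable {d m a n r : ℕ} {E Γ H Γ' : Type} [TopologicalSpace E] [Group Γ] [MulAction Γ E]
  [TopologicalSpace H] [T2Space H] [PreconnectedSpace H] [Nonempty H]
  [Group Γ'] [Subsingleton Γ'] [MulAction Γ' H] [ContinuousConstSMul Γ' H] {S : Sheets d E Γ}
  {S' : Sheets m H Γ'}

section harm
variable {d n : ℕ} {E Γ : Type} [TopologicalSpace E] [Group Γ] [MulAction Γ E]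
  [ContinuousConstSMul Γ E] [Subsingleton Γ] {S : Sheets d E Γ}

theorem err_cont {α : Fin S.N → Cm d → L2 d} {h : Fin S.N → Cm d → Matrix (Fin d) (Fin d) ℂ}
    {β : Fin S.N → Cm d → L1 d} (hα : Cl2 S α) (hh : Cl2 S (ts h)) (hβ : F1On S univ β)
    (i : Fin S.N) (j k : Fin d) :
    ContinuousOn (fun z => (c20 (α i z - d1 (β i) z) - h i z) j k) (ball 0 3) := by
  have hdβ : ContinuousOn (d1 (β i)) (ball 0 3) :=
    ((H125.TS.f1_of hβ).dx.smooth i).continuousOn
  refine (((H864.HK.cont_c20 (H864.HK.cl2_cont hα i) j k).sub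
    (H864.HK.cont_c20 hdβ j k)).sub
      (H864.HK.cont_c20 (H864.HK.cl2_cont hh i) j k)).congr fun z _ => ?_
  rw [H864.HK.c20_sub]
  have : c20 (ts h i z) = h i z := H624.HK.c20_tf _
  show (c20 (α i z) - c20 (d1 (β i) z) - h i z) j k = c20 (α i z) j k - c20 (d1 (β i) z) j k -
    c20 (ts h i z) j k
  rw [this]
  rfl

theorem c20_lin (c : ℂ) (x y : L2 d) : c20 (x + c • y) = c20 x + c • c20 y := by
  ext j k
  simp only [c20, Matrix.of_apply, Matrix.add_apply, Matrix.smul_apply, add_apply, smul_apply,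
    smul_eq_mul]
  ring

theorem d1_lin {β β' : Cm d → L1 d} {z : Cm d} (h : DifferentiableAt ℝ β z)
    (h' : DifferentiableAt ℝ β' z) (c : ℂ) :
    d1 (fun y => β y + c • β' y) z = d1 β z + c • d1 β' z := by
  have e : fderiv ℝ (fun z => β z + c • β' z) z = fderiv ℝ β z + c • fderiv ℝ β' z :=
    (h.hasFDerivAt.add (h'.hasFDerivAt.const_smul c)).fderiv
  ext u v
  show fderiv ℝ (fun y => β y + c • β' y) z u v - fderiv ℝ (fun y => β y + c • β' y) z v u =
    (fderiv ℝ β z u v - fderiv ℝ β z v u) + c * (fderiv ℝ β' z u v - fderiv ℝ β' z v u)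
  rw [e]
  show (fderiv ℝ β z u v + c * fderiv ℝ β' z u v) - (fderiv ℝ β z v u + c * fderiv ℝ β' z v u) = _
  ring

theorem ts_lin (h h' : Fin S.N → Cm d → Matrix (Fin d) (Fin d) ℂ) (c : ℂ) :
    (ts fun i z => h i z + c • h' i z) = fun i z => ts h i z + c • ts h' i z := by
  funext i z
  show tf (h i z + c • h' i z) = tf (h i z) + c • tf (h' i z)
  rw [add_comm (h i z), tf_lin]
  ext u v
  exact add_comm (c * tf (h' i z) u v) (tf (h i z) u v)

/-- `HTStmt` is linear. -/
theorem harm_add_smul {α α' : Fin S.N → Cm d → L2 d}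
    {h h' : Fin S.N → Cm d → Matrix (Fin d) (Fin d) ℂ} (hα : Cl2 S α) (hh : Cl2 S (ts h))
    (hH : Harm S α h) (hα' : Cl2 S α') (hh' : Cl2 S (ts h')) (hH' : Harm S α' h') (c : ℂ) :
    Harm S (fun i z => α i z + c • α' i z) (fun i z => h i z + c • h' i z) := by
  intro ε hε
  obtain ⟨β, hβ, e1⟩ := hH (ε / 4) (by positivity)
  obtain ⟨β', hβ', e2⟩ := hH' (ε / (4 * (‖c‖ ^ 2 + 1))) (by positivity)
  refine ⟨fun i z => β i z + c • β' i z, H747.TS.f1_add_smul hβ hβ' c, ?_⟩
  have hq : ∀ i, IntegrableOn (fun z => ∑ j, ∑ k,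
      ‖(c20 (α i z - d1 (β i) z) - h i z) j k‖ ^ 2) (S.P i) := fun i =>
    integrableOn_P S i (continuousOn_finsetSum _ fun j _ => continuousOn_finsetSum _
      fun k _ => (err_cont hα hh hβ i j k).norm.pow 2)
  have hq' : ∀ i, IntegrableOn (fun z => ∑ j, ∑ k,
      ‖(c20 (α' i z - d1 (β' i) z) - h' i z) j k‖ ^ 2) (S.P i) := fun i =>
    integrableOn_P S i (continuousOn_finsetSum _ fun j _ => continuousOn_finsetSum _
      fun k _ => (err_cont hα' hh' hβ' i j k).norm.pow 2)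
  have key : ∀ i, ∀ z ∈ ball (0 : Cm d) 3, ∀ j k,
      ‖(c20 (α i z + c • α' i z - d1 (fun z => β i z + c • β' i z) z) -
        (h i z + c • h' i z)) j k‖ ^ 2 ≤
      2 * ‖(c20 (α i z - d1 (β i) z) - h i z) j k‖ ^ 2 +
        2 * ‖c‖ ^ 2 * ‖(c20 (α' i z - d1 (β' i) z) - h' i z) j k‖ ^ 2 := by
    intro i z hz j k
    have hd : DifferentiableAt ℝ (β i) z :=
      (hβ.smooth i z hz (mem_univ _)).differentiableAt (by simp)
    have hd' : DifferentiableAt ℝ (β' i) z :=
      (hβ'.smooth i z hz (mem_univ _)).differentiableAt (by simp)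
    have g1 : α i z + c • α' i z - d1 (fun z => β i z + c • β' i z) z =
        (α i z - d1 (β i) z) + c • (α' i z - d1 (β' i) z) := by
      rw [d1_lin hd hd' c]
      ext u v
      show α i z u v + c * α' i z u v - (d1 (β i) z u v + c * d1 (β' i) z u v) =
        (α i z u v - d1 (β i) z u v) + c * (α' i z u v - d1 (β' i) z u v)
      ring
    have g2 : (c20 (α i z + c • α' i z - d1 (fun z => β i z + c • β' i z) z) -
        (h i z + c • h' i z)) j k = (c20 (α i z - d1 (β i) z) - h i z) j k +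
        c * (c20 (α' i z - d1 (β' i) z) - h' i z) j k := by
      rw [g1, c20_lin]
      simp only [Matrix.sub_apply, Matrix.add_apply, Matrix.smul_apply, smul_eq_mul]
      ring
    rw [g2]
    set p := (c20 (α i z - d1 (β i) z) - h i z) j k
    set q := (c20 (α' i z - d1 (β' i) z) - h' i z) j k
    have g3 : ‖p + c * q‖ ≤ ‖p‖ + ‖c‖ * ‖q‖ := by
      refine (norm_add_le _ _).trans ?_
      rw [norm_mul]
    have g4 := norm_nonneg (p + c * q)
    have g5 : ‖p + c * q‖ ^ 2 ≤ (‖p‖ + ‖c‖ * ‖q‖) ^ 2 := by gcongr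
    nlinarith [sq_nonneg (‖p‖ - ‖c‖ * ‖q‖)]
  calc ∑ i, ∫ z in S.P i, ∑ j, ∑ k,
        ‖(c20 (α i z + c • α' i z - d1 (fun z => β i z + c • β' i z) z) -
          (h i z + c • h' i z)) j k‖ ^ 2
      ≤ ∑ i, ∫ z in S.P i, (2 * (∑ j, ∑ k, ‖(c20 (α i z - d1 (β i) z) - h i z) j k‖ ^ 2) +
        2 * ‖c‖ ^ 2 * ∑ j, ∑ k, ‖(c20 (α' i z - d1 (β' i) z) - h' i z) j k‖ ^ 2) := by
        refine Finset.sum_le_sum fun i _ => ?_
        refine integral_mono_of_nonneg ?_ (((hq i).const_mul _).add ((hq' i).const_mul _)) ?_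
        · exact Filter.Eventually.of_forall fun z => Finset.sum_nonneg fun j _ =>
            Finset.sum_nonneg fun k _ => by positivity
        · refine (ae_restrict_iff' (meas_P S i)).2 (Filter.Eventually.of_forall fun z hz => ?_)
          have hz3 := P_subset3 S i hz
          beta_reduce
          rw [Finset.mul_sum, Finset.mul_sum, ← Finset.sum_add_distrib]
          refine Finset.sum_le_sum fun j _ => ?_
          rw [Finset.mul_sum, Finset.mul_sum, ← Finset.sum_add_distrib]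
          exact Finset.sum_le_sum fun k _ => key i z hz3 j k
    _ = 2 * (∑ i, ∫ z in S.P i, ∑ j, ∑ k, ‖(c20 (α i z - d1 (β i) z) - h i z) j k‖ ^ 2) +
        2 * ‖c‖ ^ 2 * ∑ i, ∫ z in S.P i, ∑ j, ∑ k,
          ‖(c20 (α' i z - d1 (β' i) z) - h' i z) j k‖ ^ 2 := by
        rw [Finset.mul_sum, Finset.mul_sum, ← Finset.sum_add_distrib]
        refine Finset.sum_congr rfl fun i _ => ?_
        have j1 := (hq i).const_mul 2
        have j2 := (hq' i).const_mul (2 * ‖c‖ ^ 2)
        rw [integral_add j1 j2, integral_const_mul, integral_const_mul]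
    _ < ε := by
        have g1 : 2 * ‖c‖ ^ 2 * ∑ i, ∫ z in S.P i, ∑ j, ∑ k,
            ‖(c20 (α' i z - d1 (β' i) z) - h' i z) j k‖ ^ 2 ≤
            2 * ‖c‖ ^ 2 * (ε / (4 * (‖c‖ ^ 2 + 1))) :=
          mul_le_mul_of_nonneg_left e2.le (by positivity)
        have g2 : 2 * ‖c‖ ^ 2 * (ε / (4 * (‖c‖ ^ 2 + 1))) ≤ ε / 2 := by
          rw [mul_div_assoc', div_le_div_iff₀ (by positivity) (by positivity)]
          nlinarith [sq_nonneg ‖c‖]
        linarith

theorem harm_zero : Harm S (fun _ _ => (0 : L2 d)) (fun _ _ => 0) := by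
  intro ε hε
  refine ⟨fun _ _ => 0, H747.TS.f1_zero univ, ?_⟩
  have h1 : ∀ z : Cm d, c20 ((0 : L2 d) - d1 (fun _ => (0 : L1 d)) z) = 0 := by
    intro z
    have h2 : (0 : L2 d) - d1 (fun _ => (0 : L1 d)) z = 0 := by
      ext u v
      show (0 : ℂ) - (fderiv ℝ (fun _ : Cm d => (0 : L1 d)) z u v -
        fderiv ℝ (fun _ : Cm d => (0 : L1 d)) z v u) = 0
      simp
    rw [h2]
    ext j k
    simp [c20]
  simp only [h1]
  simpa using hε

theorem harm_sum (x : Fin n → ℂ) {α : Fin n → Fin S.N → Cm d → L2 d}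
    {h : Fin n → Fin S.N → Cm d → Matrix (Fin d) (Fin d) ℂ} (hα : ∀ k, Cl2 S (α k))
    (hh : ∀ k, Cl2 S (ts (h k))) (hH : ∀ k, Harm S (α k) (h k)) :
    Harm S (fun j y => ∑ k, x k • α k j y) (fun j y => ∑ k, x k • h k j y) := by
  classical
  have key : ∀ s : Finset (Fin n), Cl2 S (ts fun j y => ∑ k ∈ s, x k • h k j y) ∧
      Harm S (fun j y => ∑ k ∈ s, x k • α k j y) (fun j y => ∑ k ∈ s, x k • h k j y) := by
    intro s
    induction s using Finset.induction_on with
    | empty =>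
      simp only [Finset.sum_empty]
      refine ⟨?_, harm_zero⟩
      have e : (ts fun (_ : Fin S.N) (_ : Cm d) => (0 : Matrix (Fin d) (Fin d) ℂ)) =
          fun _ _ => 0 := by
        funext i z
        ext u v
        show tf (0 : Matrix (Fin d) (Fin d) ℂ) u v = 0
        rw [H624.HK.tf_apply]
        simp
      rw [e]
      exact H747.TS.cl2_zero
    | insert k s hk ih =>
      have e1 : (fun j y => ∑ k ∈ insert k s, x k • α k j y) =
          fun j y => (∑ k ∈ s, x k • α k j y) + x k • α k j y := by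
        funext j y
        rw [Finset.sum_insert hk]
        ext u v
        exact add_comm (x k * α k j y u v) ((∑ k ∈ s, x k • α k j y) u v)
      have e2 : (fun j y => ∑ k ∈ insert k s, x k • h k j y) =
          fun j y => (∑ k ∈ s, x k • h k j y) + x k • h k j y := by
        funext j y
        rw [Finset.sum_insert hk, add_comm]
      have c1 := H747.TS.cl2_sum s x fun k _ => hα k
      rw [e1, e2]
      refine ⟨?_, harm_add_smul c1 ih.1 ih.2 (hα k) (hh k) (hH k) (x k)⟩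
      rw [ts_lin]
      exact H747.TS.cl2_add_smul ih.1 (hh k) (x k)
  exact (key Finset.univ).2

end harm

/-- **R7**: the radical is the kernel of the restriction `ρ`. -/
theorem ratRad_core (hHI : HIStmt) (hPos : PosStmt) (hFo : FormsStmt) (hm : 2 ≤ m)
    {u : Fin S.N → Cm d → Matrix (Fin a) (Fin d) ℂ} {w s : Fin S.N → Cm d → Matrix (Fin d) (Fin d) ℂ}
    {w' s' : Fin S'.N → Cm m → Matrix (Fin m) (Fin m) ℂ} (M : Mark2 S n) (M' : Mark2 S' r)
    (cw : Cl2 S (kw w)) (cs : Cl2 S (ts s)) (hw' : Kah S' w') (hs' : Hol2 S' s')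
    (hne : ∃ i, ∃ z ∈ ball (0 : Cm m) 3, s' i z ≠ 0)
    (ρ : (Fin S.N → Cm d → L2 d) → Fin S'.N → Cm m → L2 m)
    (ρc : ∀ x, Cl2 S x → Cl2 S' (ρ x)) (ρr : ∀ k, Real2 S' (ρ (M.b k)))
    (ρw : ∀ j, ∀ y ∈ ball (0 : Cm m) 3, ρ (kw w) j y = kw w' j y)
    (ρs : ∀ j, ∀ y ∈ ball (0 : Cm m) 3, ρ (ts s) j y = ts s' j y)
    (J : Matrix (Fin r) (Fin n) ℤ)
    (hJ : ∀ x, Cl2 S x → M'.cl (ρ x) = (J.map (Int.cast : ℤ → ℂ)).mulVec (M.cl x))
    (harm : ∀ k, ∃ c : ℂ, Harm S' (ρ (M.b k)) (fun j y => c • s' j y)) {A B : ℝ} (hA : A ≠ 0) (hB : B ≠ 0)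
    (h5 : ∀ k l, (A : ℂ) * bW S' (ρ (M.b k)) (ρ (M.b l)) (kw w') =
      (B : ℂ) * bT S u (M.b k) (M.b l) (kw w)) :
    RatRad S u (kw w) := by
  have hm0 : 0 < m := by omega
  have hm1 : 1 < m := by omega
  obtain ⟨f1, f2, f3⟩ := hFo m H Γ' S' hm0
  obtain ⟨cw', rw'⟩ := f2 w' hw'
  have cs' := f1 s' hs'
  have cρ : ∀ k, Cl2 S' (ρ (M.b k)) := fun k => ρc _ (M.closed k)
  have hcl : ∀ k, M'.cl (ρ (M.b k)) = fun l => ((J l k : ℤ) : ℂ) := by
    intro k
    rw [hJ _ (M.closed k), H747.TS.cl_b, Matrix.mulVec_single_one]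
    funext l
    simp [Matrix.col_apply]
  refine ⟨n, r, M, J, fun x => ?_⟩
  set α : Fin S'.N → Cm m → L2 m := fun j y => ∑ k, (x k : ℂ) • ρ (M.b k) j y with hα
  have cα : Cl2 S' α := H594.HK.cl2_sum _ cρ
  have rα : Real2 S' α := by
    intro i z hz u v
    simp only [hα, sum_apply, smul_apply, smul_eq_mul, Complex.im_sum]
    refine Finset.sum_eq_zero fun k _ => ?_
    rw [Complex.mul_im, ρr k i z hz u v, Complex.ofReal_im]
    ring
  have clα : M'.cl α = fun l => ((((J.map (Int.cast : ℤ → ℝ)).mulVec x) l : ℝ) : ℂ) := by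
    have h6 := H747.TS.cl_sum M' Finset.univ (fun k => (x k : ℂ)) (α := fun k => ρ (M.b k))
      fun k _ => cρ k
    refine h6.trans ?_
    funext l
    rw [Finset.sum_apply]
    show _ = (((∑ k, ((J l k : ℤ) : ℝ) * x k : ℝ)) : ℂ)
    rw [Complex.ofReal_sum]
    refine Finset.sum_congr rfl fun k _ => ?_
    rw [Pi.smul_apply, hcl k, smul_eq_mul]
    push_cast
    ring
  -- the products
  have q1 : ∀ y, Cl2 S' y → bW S' α y (kw w') = ∑ k, (x k : ℂ) * bW S' (ρ (M.b k)) y (kw w') :=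
    fun y hy => H594.HK.bW_sum hm0 _ (fun k => H594.HK.cl2_cont (cρ k)) (H594.HK.cl2_cont hy)
      (H594.HK.cl2_cont cw')
  have q2 : ∀ l, bW S' α (ρ (M.b l)) (kw w') =
      ((B / A * ∑ k, x k * (bT S u (M.b k) (M.b l) (kw w)).re : ℝ) : ℂ) := by
    intro l
    have hAc : (A : ℂ) ≠ 0 := by exact_mod_cast hA
    have h6 : ∀ k, bW S' (ρ (M.b k)) (ρ (M.b l)) (kw w') =
        ((B / A * (bT S u (M.b k) (M.b l) (kw w)).re : ℝ) : ℂ) := by
      intro k
      have h7 : (bW S' (ρ (M.b k)) (ρ (M.b l)) (kw w')).im = 0 :=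
        H594.HK.bW_im (ρr k) (ρr l) rw'
      have h8 := congrArg Complex.re (h5 k l)
      rw [Complex.re_ofReal_mul, Complex.re_ofReal_mul] at h8
      apply Complex.ext
      · rw [Complex.ofReal_re]
        field_simp
        linear_combination h8
      · rw [h7, Complex.ofReal_im]
    rw [q1 _ (cρ l)]
    push_cast
    rw [Finset.mul_sum]
    refine Finset.sum_congr rfl fun k _ => ?_
    rw [h6 k]
    push_cast
    ring
  -- pairing with the restriction of a closed form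
  have q3 : (∀ l, bW S' α (ρ (M.b l)) (kw w') = 0) → ∀ y, Cl2 S y →
      bW S' α (ρ y) (kw w') = 0 := by
    intro h0 y hy
    have e1 : ∀ y, Cl2 S y → bW S' α (ρ y) (kw w') =
        ∑ p, M'.cl (ρ y) p * bW S' (M'.b p) α (kw w') := by
      intro y hy
      rw [H594.HK.bW_comm hm1, H594.HK.bW_exp hm0 M' (ρc y hy) cα cw']
    have e2 : ∀ l, ∑ p, ((J p l : ℤ) : ℂ) * bW S' (M'.b p) α (kw w') = 0 := by
      intro l
      rw [← h0 l, e1 _ (M.closed l), hcl l]
    rw [e1 y hy, hJ y hy]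
    have e3 : ∀ p, ((J.map (Int.cast : ℤ → ℂ)).mulVec (M.cl y)) p * bW S' (M'.b p) α (kw w') =
        ∑ l, M.cl y l * (((J p l : ℤ) : ℂ) * bW S' (M'.b p) α (kw w')) := by
      intro p
      show (∑ l, ((J p l : ℤ) : ℂ) * M.cl y l) * _ = _
      rw [Finset.sum_mul]
      exact Finset.sum_congr rfl fun l _ => by ring
    simp only [e3]
    rw [Finset.sum_comm]
    refine Finset.sum_eq_zero fun l _ => ?_
    rw [← Finset.mul_sum, e2 l, mul_zero]
  constructor
  · intro hx
    have h0 : ∀ l, bW S' α (ρ (M.b l)) (kw w') = 0 := by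
      intro l
      rw [q2 l, hx l, mul_zero, Complex.ofReal_zero]
    have h1 := q3 h0
    have g1 : bW S' α (kw w') (kw w') = 0 := by
      rw [← h1 _ cw]
      refine H594.HK.bW_comm hm1 _ _ _ |>.trans ?_
      rw [H594.HK.bW_comm hm1 α]
      exact H594.HK.bW_congr (fun i z hz => (ρw i z hz).symm) fun i z hz => rfl
    have g2 : bW S' α (ts s') (kw w') = 0 := by
      rw [← h1 _ cs]
      refine H594.HK.bW_comm hm1 _ _ _ |>.trans ?_
      rw [H594.HK.bW_comm hm1 α]
      exact H594.HK.bW_congr (fun i z hz => (ρs i z hz).symm) fun i z hz => rfl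
    have g3 : (bW S' α α (kw w')).re = 0 := by
      rw [q1 α cα, Finset.sum_eq_zero, Complex.zero_re]
      intro k _
      rw [H594.HK.bW_comm hm1, h0 k, mul_zero]
    choose c₁ hc₁ using harm
    have hc : Harm S' α (fun j y => (∑ k, (x k : ℂ) * c₁ k) • s' j y) := by
      have h6 := harm_sum (fun k => (x k : ℂ)) cρ (fun k => ?_) hc₁
      · have e : (fun j y => ∑ k, (x k : ℂ) • c₁ k • s' j y) =
            fun j y => (∑ k, (x k : ℂ) * c₁ k) • s' j y := by
          funext j y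
          rw [Finset.sum_smul]
          exact Finset.sum_congr rfl fun k _ => smul_smul _ _ _
        rw [e] at h6
        exact h6
      · have e : (ts fun j y => c₁ k • s' j y) = fun j y => c₁ k • ts s' j y :=
          funext₂ fun j y => tf_smul (c₁ k) (s' j y)
        rw [e]
        exact H740.TS.cl2_smul (c₁ k) cs'
    have hex := exact_of_orth hHI hPos hFo hm hw' hs' hne cα rα hc g1 g2 g3
    have h2 : M'.cl α = 0 := H747.TS.cl_of_exact M' cα hex
    rw [clα] at h2
    funext l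
    have h6 : ((((J.map (Int.cast : ℤ → ℝ)).mulVec x) l : ℝ) : ℂ) = 0 := congrFun h2 l
    exact Complex.ofReal_eq_zero.1 h6
  · intro hx l
    have h2 : M'.cl α = 0 := by
      rw [clα, hx]
      funext l
      simp
    have hex : Exact S' α := H747.TS.exact_of_cl M' cα h2
    have h3 : bW S' α (ρ (M.b l)) (kw w') = 0 := H594.HK.bW_exact hm0 hex (cρ l) cw'
    rw [q2 l] at h3
    have h4 : B / A * ∑ k, x k * (bT S u (M.b k) (M.b l) (kw w)).re = 0 := by exact_mod_cast h3
    exact (mul_eq_zero.1 h4).resolve_left (div_ne_zero hB hA)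

end Vale.Agent.P281.H864.HKT
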