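import Vale.Agent.P281.H152.RC.Spec
import Vale.Agent.P281.H864.HKT.R7c
import Vale.Agent.P281.H864.TS.Pull

/-!
# P281, project RADC, block R6 (helper864): slices of 1-forms
-/

open Set Filter Metric MeasureTheory
open scoped Topology ContDiff ComplexConjugate ComplexOrder

noncomputable section

namespace Vale.Agent.P281.H864.HKT

open Vale.Agent.P281.H64 (Cm)
open Vale.Agent.P281.H64.TK Vale.Agent.P281.H303.K
open Vale.Agent.P281.H64.TK.TS (L1 L2 F1On F2On Cl2 Exact IsD1 Pull2 Dif Real2 Tr d1 Mark2)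
open Vale.Agent.P281.H83.HK (tf cj c20 ts cjs kw kf Hol2 bW rb)
open Vale.Agent.P281.H399.QT (One1 Qs pj quo)
open Vale.Agent.P281.H842.HKT (p1 p2 ap pe)
open Vale.Agent.P281.H751.HKT (inc inc_rb inc_left inc_right)
open Vale.Agent.P281.H152.RC (Adp fibS Fb fbσ fbσ_val ap_mem3 slm)

section coord
variable {a h : ℕ}

theorem ap_eq (t : Cm a) (u : Cm h) : ap t u = ap t 0 + inc a h u := by
  funext k
  refine Fin.addCases (fun j => ?_) (fun i => ?_) k
  · rw [Pi.add_apply, inc_left, add_zero, ap, ap, Fin.append_left, Fin.append_left]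
  · rw [Pi.add_apply, inc_right, ap, ap, Fin.append_right, Fin.append_right]
    simp

theorem hasFDerivAt_ap (t : Cm a) (z : Cm h) :
    HasFDerivAt (𝕜 := ℝ) (fun u : Cm h => ap t u) (inc a h) z := by
  have e : (fun u : Cm h => ap t u) = fun u => ap t 0 + inc a h u := funext fun u => ap_eq t u
  rw [e]
  exact ((inc a h).hasFDerivAt).const_add _

theorem contDiff_ap' (t : Cm a) : ContDiff ℝ ∞ (fun u : Cm h => ap t u) := by
  have e : (fun u : Cm h => ap t u) = fun u => ap t 0 + inc a h u := funext fun u => ap_eq t u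
  rw [e]
  exact contDiff_const.add (inc a h).contDiff

theorem inc_inj {u v : Cm h} (e : inc a h u = inc a h v) : u = v := by
  funext i
  have := congrFun e (Fin.natAdd a i)
  rwa [inc_right, inc_right] at this

/-- The (2,0)-part of the slice. -/
theorem c20_rs' (x : L2 (a + h)) :
    c20 (H751.HKT.rs x) = (c20 x).submatrix (Fin.natAdd a) (Fin.natAdd a) := by
  ext j k
  simp only [c20, Matrix.of_apply, Matrix.submatrix_apply, H751.HKT.rs_apply, inc_rb]

/-- The slice of the differential. -/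
theorem d1_slice {b : Cm (a + h) → L1 (a + h)} {t : Cm a} {z : Cm h}
    (hb : DifferentiableAt ℝ b (ap t z)) :
    d1 (fun y => (b (ap t y)).comp (inc a h)) z = H751.HKT.rs (d1 b (ap t z)) := by
  have h1 : HasFDerivAt (fun y => (b (ap t y)).comp (inc a h))
      (((ContinuousLinearMap.compL ℝ (Cm h) (Cm (a + h)) ℂ).flip (inc a h)).comp
        ((fderiv ℝ b (ap t z)).comp (inc a h))) z :=
    (((ContinuousLinearMap.compL ℝ (Cm h) (Cm (a + h)) ℂ).flip (inc a h)).hasFDerivAt).comp z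
      (hb.hasFDerivAt.comp z (hasFDerivAt_ap t z))
  have h2 := h1.fderiv
  ext u v
  show fderiv ℝ (fun y => (b (ap t y)).comp (inc a h)) z u v -
    fderiv ℝ (fun y => (b (ap t y)).comp (inc a h)) z v u =
    fderiv ℝ b (ap t z) (inc a h u) (inc a h v) - fderiv ℝ b (ap t z) (inc a h v) (inc a h u)
  rw [h2]
  rfl

end coord

section
variable {a h n : ℕ} {E K : Type} [TopologicalSpace E] [T2Space E] [Group K] [MulAction K E]
  [ContinuousConstSMul K E] {S : Sheets (a + h) E K} {F : E → Fin a → ℂ} {c : K → Fin a → ℂ}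
  {t₀ : Cm a} {ε : ℝ}

/-- A transition map of the fibre is the restriction of a transition map of `E / K`. -/
theorem slice_tr (hA : Adp S F c t₀ ε n) {t : Cm a} (ht : t ∈ ball (0 : Cm a) 1) {i j : Fin n}
    {z z' : Cm h} (hz : z ∈ ball (0 : Cm h) 3) (hz' : z' ∈ ball (0 : Cm h) 3) {ψ : Cm h → Cm h}
    (hψ : Tr (fibS hA ht) (fibS hA ht) id i j z z' ψ) :
    ∃ θ, Tr (quo S) (quo S) id (Fin.castLE hA.le i) (Fin.castLE hA.le j) (ap t z) (ap t z') θ ∧
      ∀ v, fderiv ℝ θ (ap t z) (inc a h v) = inc a h (fderiv ℝ ψ z v) := by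
  obtain ⟨h1, h2, h3⟩ := hψ
  have e0 : ∀ u, u ∈ ball (0 : Cm h) 3 → ψ u ∈ ball (0 : Cm h) 3 →
      (fibS hA ht).σ i u = (fibS hA ht).σ j (ψ u) →
      (quo S).σ (Fin.castLE hA.le i) (ap t u) = (quo S).σ (Fin.castLE hA.le j) (ap t (ψ u)) := by
    intro u hu hu' he
    have h4 : (fbσ hA ht i u).1 = (fbσ hA ht j (ψ u)).1 := congrArg Subtype.val he
    rw [fbσ_val hA ht i hu, fbσ_val hA ht j hu'] at h4
    show pj K (S.σ (Fin.castLE hA.le i) (ap t u)) = pj K (S.σ (Fin.castLE hA.le j) (ap t (ψ u)))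
    rw [h4]
  have hψz : ψ z ∈ ball (0 : Cm h) 3 := by rw [h2]; exact hz'
  obtain ⟨θ, hθ⟩ := H864.TS.hasTr_id (quo S) (Fin.castLE hA.le i) (Fin.castLE hA.le j) (ap t z)
    (ap_mem3 ht hz) (ap t z') (ap_mem3 ht hz') (by
      have := e0 z hz hψz h3.self_of_nhds
      rw [h2] at this
      exact this)
  refine ⟨θ, hθ, ?_⟩
  obtain ⟨g1, g2, g3⟩ := hθ
  have hap : ContinuousAt (fun u : Cm h => ap t u) z := (hasFDerivAt_ap t z).continuousAt
  have hψc : ContinuousAt ψ z := h1.continuousAt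
  have e1 : ∀ᶠ u in 𝓝 z, θ (ap t u) = ap t (ψ u) := by
    have k1 : ∀ᶠ u in 𝓝 z, u ∈ ball (0 : Cm h) 3 := isOpen_ball.mem_nhds hz
    have k2 : ∀ᶠ u in 𝓝 z, ψ u ∈ ball (0 : Cm h) 3 := hψc (isOpen_ball.mem_nhds hψz)
    have k3 : ∀ᶠ u in 𝓝 z, θ (ap t u) ∈ ball (0 : Cm (a + h)) 3 := by
      have : ContinuousAt (fun u : Cm h => θ (ap t u)) z :=
        ContinuousAt.comp (f := fun u : Cm h => ap t u) g1.continuousAt hap
      exact this (isOpen_ball.mem_nhds (by
        show θ (ap t z) ∈ _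
        rw [g2]; exact ap_mem3 ht hz'))
    have k4 : ∀ᶠ u in 𝓝 z, id ((quo S).σ (Fin.castLE hA.le i) (ap t u)) =
        (quo S).σ (Fin.castLE hA.le j) (θ (ap t u)) := hap.eventually g3
    filter_upwards [k1, k2, k3, k4, h3] with u q1 q2 q3 q4 q5
    have q6 := e0 u q1 q2 q5
    have q7 : (quo S).σ (Fin.castLE hA.le j) (θ (ap t u)) =
        (quo S).σ (Fin.castLE hA.le j) (ap t (ψ u)) := q4.symm.trans q6
    exact ((quo S).inj _ _ q3 _ (ap_mem3 ht q2) 1 (by rw [one_smul]; exact q7)).2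
  have d1' : HasFDerivAt (fun u : Cm h => θ (ap t u))
      ((fderiv ℝ θ (ap t z)).comp (inc a h)) z :=
    HasFDerivAt.comp z ((g1.differentiableAt (by simp)).hasFDerivAt) (hasFDerivAt_ap t z)
  have d2' : HasFDerivAt (fun u : Cm h => ap t (ψ u)) ((inc a h).comp (fderiv ℝ ψ z)) z :=
    HasFDerivAt.comp z (hasFDerivAt_ap t (ψ z)) ((h1.differentiableAt (by simp)).hasFDerivAt)
  have d3 : HasFDerivAt (fun u : Cm h => θ (ap t u)) ((inc a h).comp (fderiv ℝ ψ z)) z :=
    d2'.congr_of_eventuallyEq e1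
  have d4 := d1'.unique d3
  intro v
  have := congrArg (fun L : Cm h →L[ℝ] Cm (a + h) => L v) d4
  exact this

/-- The slice of a 1-form. -/
def sb (hA : Adp S F c t₀ ε n) (β : Fin S.N → Cm (a + h) → L1 (a + h)) (t : Cm a) :
    Fin n → Cm h → L1 h := fun i z => (β (Fin.castLE hA.le i) (ap t z)).comp (inc a h)

theorem sb_f1 (hA : Adp S F c t₀ ε n) {t : Cm a} (ht : t ∈ ball (0 : Cm a) 1)
    {β : Fin S.N → Cm (a + h) → L1 (a + h)} (hβ : F1On (quo S) univ β) :
    F1On (fibS hA ht) univ (sb hA β t) where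
  smooth i z hz _ := by
    have h1 : ContDiffAt ℝ ∞ (fun y : Cm h => β (Fin.castLE hA.le i) (ap t y)) z :=
      ContDiffAt.comp (f := fun y : Cm h => ap t y) z
        (hβ.smooth (Fin.castLE hA.le i) _ (ap_mem3 ht hz) (mem_univ _))
        (contDiff_ap' t).contDiffAt
    exact h1.clm_comp contDiffAt_const
  change i j z hz z' hz' _ ψ hψ v := by
    obtain ⟨θ, hθ, hd⟩ := slice_tr hA ht hz hz' hψ
    show β (Fin.castLE hA.le i) (ap t z) (inc a h v) =
      β (Fin.castLE hA.le j) (ap t z') (inc a h (fderiv ℝ ψ z v))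
    rw [← hd v]
    exact hβ.change _ _ _ (ap_mem3 ht hz) _ (ap_mem3 ht hz') (mem_univ _) θ hθ _

/-- The error on the slice. -/
theorem err_slice (hA : Adp S F c t₀ ε n) {t : Cm a} (ht : t ∈ ball (0 : Cm a) 1)
    {β : Fin S.N → Cm (a + h) → L1 (a + h)} (hβ : F1On (quo S) univ β)
    (x : Fin S.N → Cm (a + h) → L2 (a + h))
    (s : Fin S.N → Cm (a + h) → Matrix (Fin (a + h)) (Fin (a + h)) ℂ) (i : Fin n) {z : Cm h}
    (hz : z ∈ ball (0 : Cm h) 3) :
    ∑ j, ∑ k, ‖(c20 (H152.RC.sl hA x t i z - d1 (sb hA β t i) z) - slm hA s t i z) j k‖ ^ 2 ≤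
      ∑ j, ∑ k, ‖(c20 (x (Fin.castLE hA.le i) (ap t z) - d1 (β (Fin.castLE hA.le i)) (ap t z)) -
        s (Fin.castLE hA.le i) (ap t z)) j k‖ ^ 2 := by
  set I := Fin.castLE hA.le i
  have hd : DifferentiableAt ℝ (β I) (ap t z) :=
    (hβ.smooth I _ (ap_mem3 ht hz) (mem_univ _)).differentiableAt (by simp)
  have e1 : c20 (H152.RC.sl hA x t i z - d1 (sb hA β t i) z) - slm hA s t i z =
      (c20 (x I (ap t z) - d1 (β I) (ap t z)) - s I (ap t z)).submatrix (Fin.natAdd a)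
        (Fin.natAdd a) := by
    have e2 : d1 (sb hA β t i) z = H751.HKT.rs (d1 (β I) (ap t z)) := d1_slice hd
    have e3 : H152.RC.sl hA x t i z - d1 (sb hA β t i) z =
        H751.HKT.rs (x I (ap t z) - d1 (β I) (ap t z)) := by
      rw [e2]
      rfl
    rw [e3, c20_rs']
    rfl
  rw [e1]
  set D := c20 (x I (ap t z) - d1 (β I) (ap t z)) - s I (ap t z)
  simp only [Matrix.submatrix_apply]
  rw [Fin.sum_univ_add (f := fun j => ∑ k, ‖D j k‖ ^ 2)]
  have h1 : ∀ j : Fin (a + h), ∑ k : Fin h, ‖D j (Fin.natAdd a k)‖ ^ 2 ≤ ∑ k, ‖D j k‖ ^ 2 := by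
    intro j
    rw [Fin.sum_univ_add (f := fun k => ‖D j k‖ ^ 2)]
    exact le_add_of_nonneg_left (Finset.sum_nonneg fun _ _ => by positivity)
  refine le_add_of_nonneg_of_le (Finset.sum_nonneg fun _ _ => Finset.sum_nonneg fun _ _ => by
    positivity) ?_
  exact Finset.sum_le_sum fun j _ => h1 _

end

end Vale.Agent.P281.H864.HKT
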