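import Vale.Agent.P281.H864.HKT.HTa

/-!
# P281, project RADC, block R6 (helper864): the (2,0)-part on almost all fibres
-/

open Set Filter Metric MeasureTheory
open scoped Topology ContDiff ComplexConjugate ComplexOrder

noncomputable section

namespace Vale.Agent.P281.H864.HKT

open Vale.Agent.P281.H64 (Cm)
open Vale.Agent.P281.H64.TK Vale.Agent.P281.H303.K
open Vale.Agent.P281.H64.TK.TS (L1 L2 F1On F2On Cl2 Exact IsD1 Pull2 Dif Real2 Tr d1 Mark2)
open Vale.Agent.P281.H83.HK (tf cj c20 ts cjs kw kf Hol2 bW rb HTStmt FormsStmt)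
open Vale.Agent.P281.H83.HKT (thj uu bT Hol1 FormsTStmt)
open Vale.Agent.P281.H399.QT (One1 Qs pj quo pj_eq)
open Vale.Agent.P281.H842.HKT (p1 p2 ap pe)
open Vale.Agent.P281.H864.HK (Harm)
open Vale.Agent.P281.H152.RC (Adp fibS Fb fbσ fbσ_val ap_mem3 slm sl PF FubStmt SliceStmt HTsStmt)

theorem quo_P {d : ℕ} {E K : Type} [TopologicalSpace E] [Group K] [MulAction K E]
    [ContinuousConstSMul K E] (S : Sheets d E K) (i : Fin S.N) : (quo S).P i = S.P i := by
  ext z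
  constructor
  · rintro ⟨h1, h2⟩
    refine ⟨h1, fun j hj γ w hw he => h2 j hj 1 w hw ?_⟩
    show pj K (S.σ j w) = pj K (S.σ i z)
    exact (pj_eq.2 ⟨γ, he⟩).symm
  · rintro ⟨h1, h2⟩
    refine ⟨h1, fun j hj γ w hw he => ?_⟩
    have he' : pj K (S.σ j w) = pj K (S.σ i z) := he
    obtain ⟨γ', hγ⟩ := pj_eq.1 he'.symm
    exact h2 j hj γ' w hw hγ

section
variable {a h n : ℕ} {E K : Type} [TopologicalSpace E] [T2Space E] [Group K] [MulAction K E]
  [ContinuousConstSMul K E] {S : Sheets (a + h) E K} {F : E → Fin a → ℂ} {c : K → Fin a → ℂ}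
  {t₀ : Cm a} {ε : ℝ}

/-- A sequence of functions with integrals tending to `0`. -/
theorem ae_small {μ : Measure (Cm a)} [IsFiniteMeasure μ] {f : ℕ → Cm a → ℝ}
    (h0 : ∀ k t, 0 ≤ f k t) (hi : ∀ k, Integrable (f k) μ)
    (hs : ∀ k : ℕ, ∫ t, f k t ∂μ ≤ 1 / ((k : ℝ) + 1)) (m : ℕ) :
    ∀ᵐ t ∂μ, ∃ k, f k t < 1 / ((m : ℝ) + 1) := by
  have hm : (0 : ℝ) < 1 / ((m : ℝ) + 1) := by positivity
  set A : Set (Cm a) := {t | ∀ k, 1 / ((m : ℝ) + 1) ≤ f k t} with hA
  have h1 : ∀ k : ℕ, μ.real A ≤ ((m : ℝ) + 1) / ((k : ℝ) + 1) := by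
    intro k
    have h2 := mul_meas_ge_le_integral_of_nonneg (Filter.Eventually.of_forall (h0 k)) (hi k)
      (1 / ((m : ℝ) + 1))
    have h3 : μ.real A ≤ μ.real {t | 1 / ((m : ℝ) + 1) ≤ f k t} :=
      measureReal_mono fun t ht => ht k
    have h4 : 1 / ((m : ℝ) + 1) * μ.real A ≤ 1 / ((k : ℝ) + 1) :=
      (mul_le_mul_of_nonneg_left h3 hm.le).trans (h2.trans (hs k))
    have h5 : (0 : ℝ) < (m : ℝ) + 1 := by positivity
    have h6 : (0 : ℝ) < (k : ℝ) + 1 := by positivity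
    rw [one_div, inv_mul_le_iff₀ h5] at h4
    rw [div_eq_mul_one_div]
    exact h4
  have h2 : μ.real A ≤ 0 := by
    refine le_of_forall_pos_lt_add fun δ hδ => ?_
    have h5 : (0 : ℝ) < (m : ℝ) + 1 := by positivity
    obtain ⟨k, hk⟩ := exists_nat_one_div_lt (div_pos hδ h5)
    refine lt_of_le_of_lt (h1 k) ?_
    rw [zero_add, div_eq_mul_one_div]
    have := mul_lt_mul_of_pos_left hk h5
    rwa [mul_div_cancel₀ _ h5.ne'] at this
  have h3 : μ A = 0 := by
    have h4 : μ.real A = 0 := le_antisymm h2 measureReal_nonneg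
    exact (measureReal_eq_zero_iff (measure_ne_top μ A)).1 h4
  rw [ae_iff]
  convert h3 using 2
  ext t
  simp [hA]

/-- **The (2,0)-part on almost all fibres.** -/
theorem harm_slice (hFub : FubStmt) (hA : Adp S F c t₀ ε n)
    {x : Fin S.N → Cm (a + h) → L2 (a + h)} (cx : Cl2 (quo S) x)
    {s : Fin S.N → Cm (a + h) → Matrix (Fin (a + h)) (Fin (a + h)) ℂ}
    (cs : Cl2 (quo S) (ts s)) (hH : Harm (quo S) x s) :
    ∀ᵐ t : Cm a, ∀ ht : t ∈ ball (0 : Cm a) 1,
      Harm (fibS hA ht) (sl hA x t) (slm hA s t) := by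
  obtain ⟨hP, hI, -⟩ := hFub a h E K S F c t₀ ε n hA
  have hH' := fun k : ℕ => hH (1 / ((k : ℝ) + 1)) (by positivity)
  choose β hβ hb using hH'
  set e : ℕ → Fin S.N → Cm (a + h) → ℝ := fun k I z =>
    ∑ j, ∑ l, ‖(c20 (x I z - d1 (β k I) z) - s I z) j l‖ ^ 2 with he
  have hec : ∀ k I, ContinuousOn (e k I) (ball 0 3) := fun k I =>
    continuousOn_finsetSum _ fun j _ => continuousOn_finsetSum _
      fun l _ => (err_cont cx cs (hβ k) I j l).norm.pow 2
  have he0 : ∀ k I z, 0 ≤ e k I z := fun k I z => Finset.sum_nonneg fun j _ =>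
    Finset.sum_nonneg fun l _ => by positivity
  set f : ℕ → Cm a → ℝ := fun k t => ∑ i : Fin n, ∫ z in PF hA i t,
    e k (Fin.castLE hA.le i) (ap t z) with hf
  have hec' : ∀ k I, ContinuousOn (fun z => ((e k I z : ℝ) : ℂ)) (ball 0 3) := fun k I =>
    Complex.continuous_ofReal.comp_continuousOn (hec k I)
  have q1 : ∀ k (i : Fin n), IntegrableOn (fun t => ∫ z in PF hA i t,
      e k (Fin.castLE hA.le i) (ap t z)) (ball 0 1) := by
    intro k i
    have h1 := (hI i _ (hec' k (Fin.castLE hA.le i))).1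
    have h2 : Integrable (fun t => RCLike.re (∫ z in PF hA i t,
        ((e k (Fin.castLE hA.le i) (ap t z) : ℝ) : ℂ))) (volume.restrict (ball 0 1)) := h1.re
    refine h2.congr (Filter.Eventually.of_forall fun t => ?_)
    have h3 : ∫ z in PF hA i t, ((e k (Fin.castLE hA.le i) (ap t z) : ℝ) : ℂ) =
        ((∫ z in PF hA i t, e k (Fin.castLE hA.le i) (ap t z) : ℝ) : ℂ) := integral_ofReal
    beta_reduce
    rw [h3]
    exact Complex.ofReal_re _
  have q2 : ∀ k (i : Fin n), ∫ t in ball (0 : Cm a) 1, ∫ z in PF hA i t,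
      e k (Fin.castLE hA.le i) (ap t z) = ∫ z in S.P (Fin.castLE hA.le i),
        e k (Fin.castLE hA.le i) z := by
    intro k i
    have h1 := (hI i _ (hec' k (Fin.castLE hA.le i))).2
    have h3 : ∀ t, ∫ z in PF hA i t, ((e k (Fin.castLE hA.le i) (ap t z) : ℝ) : ℂ) =
        ((∫ z in PF hA i t, e k (Fin.castLE hA.le i) (ap t z) : ℝ) : ℂ) :=
      fun t => integral_ofReal
    simp only [h3] at h1
    have h4 : ∫ z in S.P (Fin.castLE hA.le i), ((e k (Fin.castLE hA.le i) z : ℝ) : ℂ) =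
        ((∫ z in S.P (Fin.castLE hA.le i), e k (Fin.castLE hA.le i) z : ℝ) : ℂ) := integral_ofReal
    have h5 : ∫ t in ball (0 : Cm a) 1, ((∫ z in PF hA i t,
        e k (Fin.castLE hA.le i) (ap t z) : ℝ) : ℂ) =
        ((∫ t in ball (0 : Cm a) 1, ∫ z in PF hA i t,
          e k (Fin.castLE hA.le i) (ap t z) : ℝ) : ℂ) := integral_ofReal
    exact (Complex.ofReal_injective (h4.symm.trans (h1.trans h5))).symm
  have hfi : ∀ k, Integrable (f k) (volume.restrict (ball 0 1)) := fun k =>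
    integrable_finsetSum _ fun i _ => q1 k i
  have hf0 : ∀ k t, 0 ≤ f k t := fun k t => Finset.sum_nonneg fun i _ =>
    integral_nonneg fun z => he0 _ _ _
  have hfs : ∀ k : ℕ, ∫ t in ball (0 : Cm a) 1, f k t ≤ 1 / ((k : ℝ) + 1) := by
    intro k
    have h1 : ∫ t in ball (0 : Cm a) 1, f k t =
        ∑ i : Fin n, ∫ z in S.P (Fin.castLE hA.le i), e k (Fin.castLE hA.le i) z := by
      rw [hf]
      beta_reduce
      rw [integral_finsetSum _ fun i _ => q1 k i]
      exact Finset.sum_congr rfl fun i _ => q2 k i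
    rw [h1]
    refine le_trans ?_ (hb k).le
    have h2 : ∑ I : Fin S.N, ∫ z in (quo S).P I, e k I z = ∑ I : Fin S.N, ∫ z in S.P I, e k I z :=
      Finset.sum_congr rfl fun I _ => by rw [quo_P]
    refine le_trans ?_ h2.symm.le
    rw [← Finset.sum_image (s := Finset.univ) (g := Fin.castLE hA.le)
      (f := fun I => ∫ z in S.P I, e k I z) fun i _ j _ hij => Fin.castLE_injective hA.le hij]
    exact Finset.sum_le_sum_of_subset_of_nonneg (Finset.subset_univ _) fun I _ _ =>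
      integral_nonneg fun z => he0 _ _ _
  have : IsFiniteMeasure (volume.restrict (ball (0 : Cm a) 1)) :=
    ⟨by rw [Measure.restrict_apply_univ]; exact measure_ball_lt_top⟩
  have key : ∀ᵐ t ∂(volume.restrict (ball (0 : Cm a) 1)), ∀ m : ℕ, ∃ k,
      f k t < 1 / ((m : ℝ) + 1) := ae_all_iff.2 fun m => ae_small hf0 hfi hfs m
  rw [ae_restrict_iff' measurableSet_ball] at key
  filter_upwards [key] with t hkt ht δ hδ
  obtain ⟨m, hm⟩ := exists_nat_one_div_lt hδ
  obtain ⟨k, hk⟩ := hkt ht m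
  refine ⟨sb hA (β k) t, sb_f1 hA ht (hβ k), lt_of_le_of_lt ?_ (hk.trans hm)⟩
  refine Finset.sum_le_sum fun i _ => ?_
  rw [hP t ht i]
  have hap : ContinuousOn (fun z : Cm h => e k (Fin.castLE hA.le i) (ap t z)) (ball 0 3) :=
    (hec k _).comp (contDiff_ap' t).continuous.continuousOn fun z hz => ap_mem3 ht hz
  refine integral_mono_of_nonneg ?_ (integrableOn_P (fibS hA ht) i hap) ?_
  · exact Filter.Eventually.of_forall fun z => Finset.sum_nonneg fun j _ =>
      Finset.sum_nonneg fun k _ => by positivity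
  · refine (ae_restrict_iff' (meas_P (fibS hA ht) i)).2
      (Filter.Eventually.of_forall fun z hz => ?_)
    exact err_slice hA ht (hβ k) x s i (P_subset3 (fibS hA ht) i hz)

end

/-- On one manifold, with `θ`. -/
theorem bT_rep {a d : ℕ} {E Γ : Type} [TopologicalSpace E] [Group Γ] [MulAction Γ E]
    [ContinuousConstSMul Γ E] [Subsingleton Γ] (had : a + 2 ≤ d) {S : Sheets d E Γ}
    {u : Fin S.N → Cm d → Matrix (Fin a) (Fin d) ℂ}
    (hθ : ∀ j, Cl2 S (fun i z => thj (u i z) j)) {α : Fin S.N → Cm d → L2 d}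
    {s s' w : Fin S.N → Cm d → Matrix (Fin d) (Fin d) ℂ} (cα : Cl2 S α) (cs : Cl2 S (ts s))
    (ccs : Cl2 S (cjs (ts s'))) (cw : Cl2 S (kw w)) (hH : Harm S α s)
    (hsk : ∀ i, ∀ z ∈ ball (0 : Cm d) 3, (s' i z).transpose = -s' i z)
    (hpd : ∀ i, ∀ z ∈ ball (0 : Cm d) 3, (w i z).PosDef) :
    bT S u α (cjs (ts s')) (kw w) = bT S u (ts s) (cjs (ts s')) (kw w) := by
  obtain ⟨m, rfl⟩ : ∃ m, d = m + a := ⟨d - a, by omega⟩
  have hm : 2 ≤ m := by omega
  rw [bT_eq hm, bT_eq hm, ← g3_upd (x := α) (x' := ts s) (by omega : 0 < m),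
    ← one_mul (WT S u (Function.update (g3 α (cjs (ts s')) (kw w)) _ (ts s))),
    ← WT_rep (μ := 0) hθ (fun l _ => g3_prop cα ccs cw l) cα cs hH (fun i z _ => ?_), g3_upd]
  · intro i z hz x hx h20
    rw [g3_ev]
    have h1 := Wt_zero hm (u i z) (hsk i z hz) (hpd i z hz) hx h20
    rw [← h1]
    congr 1
    exact g3_upd (m := m) (by omega : 0 < m)
  · show s i z = (1 : ℂ) • s i z + (u i z).transpose * 0 * u i z
    rw [one_smul, Matrix.mul_zero, Matrix.zero_mul, add_zero]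

/-- **R6.** -/
theorem hTs (hHT : HTStmt) (hFo : FormsStmt) (hFT : FormsTStmt) (hFub : FubStmt)
    (hSl : SliceStmt) : HTsStmt := by
  intro a h E K _ _ _ _ _ _ S w F c t₀ ε n hA x hh hw cx
  have hT2 : T2Space (Qs K E) := H399.QT.t2_quo S
  have hwq : Kah (quo S) w := H399.QT.kah_quo hw
  have hd : 2 ≤ a + h := by omega
  obtain ⟨f1, f2, f3⟩ := hFo (a + h) (Qs K E) One1 (quo S) (by omega)
  obtain ⟨s, hs, hx⟩ := hHT (a + h) (Qs K E) One1 (quo S) w x hd hwq cx
  have hH : Harm (quo S) x s := fun δ hδ => by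
    obtain ⟨β, b1, -, b3⟩ := hx δ hδ
    exact ⟨β, b1, b3⟩
  refine ⟨s, hs, fun u s' hu hs' => ?_, ?_⟩
  · exact bT_rep (by omega) (fun j => ((hFT a (a + h) (Qs K E) One1 (quo S) u (by omega) hu).1 j).1)
      cx (f1 s hs) (f3 _ (f1 s' hs')) (f2 w hwq).1 hH (fun i z hz => hs'.alt i z hz)
      fun i z hz => hw.posDef i z hz
  · filter_upwards [harm_slice hFub hA cx (f1 s hs) hH] with t hk ht s' hs'
    obtain ⟨c1, c2, c3, c4, c5, c6, c7⟩ := hSl a h E K S F c t₀ ε n hA t ht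
    obtain ⟨g1, g2, g3⟩ := hFo h (Fb F (t₀ + (ε : ℂ) • t)) One1 (fibS hA ht) (by omega)
    have kt := c5 w hw
    have h1 := H864.HK.stepB (S := fibS hA ht) (s := slm (S := S) hA s t) (c := 1) (by omega : 0 < h) (c1 x cx)
      (g3 _ (g1 s' hs')) (g2 _ kt).1 (g1 _ (c6 s hs)) (hk ht) (fun i z _ => by
        ext p q
        exact (one_mul (ts (slm hA s t) i z p q)).symm)
      fun i z hz b hb h0 => H864.HK.W3_zero H747.HK.wVal hh (kt.posDef i z hz)
        (hs'.alt i z hz) hb h0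
    rw [h1, one_mul]

end Vale.Agent.P281.H864.HKT
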