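import Vale.Agent.P281.H864.HKT.Alg

/-!
# P281, project T-HKT, block RatioT (helper864): the integrals of the products with `θ`
-/

open Set Filter Metric MeasureTheory
open scoped Topology ContDiff ComplexConjugate ComplexOrder

noncomputable section

namespace Vale.Agent.P281.H864.HKT

open Vale.Agent.P281.H64 (Cm)
open Vale.Agent.P281.H64.TK Vale.Agent.P281.H303.K
open Vale.Agent.P281.H64.TK.TS (L1 L2 F1On F2On Cl2 Exact IsD1 Pull2 Dif Real2 Tr d1)
open Vale.Agent.P281.H83.HK (tf cj c20 ts cjs kw kf Hol2)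
open Vale.Agent.P281.H83.HKT (thj uu bT tT volT ThRel W4 thl Hol1 GenU dt)
open Vale.Agent.P281.H747.HKT (Wt th abcm W4_eq thl_eq)
open Vale.Agent.P281.H864.HK (W W_eq W_perm W_conj W_add W_smul Wint wint_class rep int_congr
  int_conj Harm hf card_hf)
open Vale.Agent.P281.H191.HK (exact_self)

section pointwise
variable {m a d : ℕ}

theorem app_upd {α : Type*} (b : Fin m → α) (t : Fin a → α) (k : Fin m) (x : α) :
    Function.update (Fin.append b t) (Fin.castAdd a k) x =
      Fin.append (Function.update b k x) t := by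
  funext i
  refine Fin.addCases (fun l => ?_) (fun j => ?_) i
  · rw [Fin.append_left]
    by_cases h : l = k
    · subst h
      rw [Function.update_self, Function.update_self]
    · rw [Function.update_of_ne h, Function.update_of_ne, Fin.append_left]
      intro he
      exact h (Fin.castAdd_injective _ _ he)
  · rw [Fin.append_right, Function.update_of_ne, Fin.append_right]
    intro he
    have h1 := congrArg Fin.val he
    have h2 := k.isLt
    simp only [Fin.val_natAdd, Fin.val_castAdd] at h1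
    omega

theorem Wt_W (b : Fin m → L2 (m + a)) (U : Matrix (Fin a) (Fin (m + a)) ℂ) :
    Wt b U = W (Fin.append b fun j => th (U j)) := W_eq _

theorem Wt_lin (b : Fin m → L2 (m + a)) (U : Matrix (Fin a) (Fin (m + a)) ℂ) (k : Fin m) (c : ℂ)
    (x y : L2 (m + a)) : Wt (Function.update b k (c • x + y)) U =
      c * Wt (Function.update b k x) U + Wt (Function.update b k y) U := by
  rw [Wt_W, Wt_W, Wt_W, ← app_upd, ← app_upd, ← app_upd, W_add, W_smul]

theorem Wt_perm (b : Fin m → L2 (m + a)) (U : Matrix (Fin a) (Fin (m + a)) ℂ)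
    (σ : Equiv.Perm (Fin m)) : Wt (fun i => b (σ i)) U = Wt b U := by
  rw [Wt_W, Wt_W, ← W_perm (Fin.append b fun j => th (U j))
    (finSumFinEquiv.permCongr (Equiv.sumCongr σ (Equiv.refl (Fin a))))]
  congr 1
  funext i
  refine Fin.addCases (fun l => ?_) (fun j => ?_) i
  · rw [Fin.append_left, Equiv.permCongr_apply, finSumFinEquiv_symm_apply_castAdd]
    show _ = Fin.append b _ (finSumFinEquiv (Sum.inl (σ l)))
    rw [finSumFinEquiv_apply_left, Fin.append_left]
  · rw [Fin.append_right, Equiv.permCongr_apply, finSumFinEquiv_symm_apply_natAdd]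
    show _ = Fin.append b _ (finSumFinEquiv (Sum.inr j))
    rw [finSumFinEquiv_apply_right, Fin.append_right]

theorem th_real (v : Fin d → ℂ) (x y : Cm d) : conj (th v x y) = th v x y := by
  rw [H747.HKT.th_dec, H747.HKT.reL_apply, H747.HKT.reL_apply, H747.HKT.imL_apply,
    H747.HKT.imL_apply]
  simp only [map_sub, map_mul, Complex.conj_ofReal]

theorem Wt_conj {b b' : Fin m → L2 (m + a)} (U : Matrix (Fin a) (Fin (m + a)) ℂ)
    (h : ∀ i x y, b' i x y = conj (b i x y)) : Wt b' U = conj (Wt b U) := by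
  rw [Wt_W, Wt_W]
  refine W_conj fun i x y => ?_
  refine Fin.addCases (fun l => ?_) (fun j => ?_) i
  · rw [Fin.append_left, Fin.append_left, h]
  · rw [Fin.append_right, Fin.append_right, th_real]

theorem tf_lin (c : ℂ) (x y : Matrix (Fin d) (Fin d) ℂ) : tf (c • x + y) = c • tf x + tf y := by
  ext p q
  rw [add_apply, add_apply, smul_apply, smul_apply, H624.HK.tf_apply, H624.HK.tf_apply,
    H624.HK.tf_apply, smul_eq_mul, Finset.mul_sum, ← Finset.sum_add_distrib]
  refine Finset.sum_congr rfl fun j _ => ?_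
  rw [Finset.mul_sum, ← Finset.sum_add_distrib]
  refine Finset.sum_congr rfl fun k _ => ?_
  rw [Matrix.add_apply, Matrix.smul_apply, smul_eq_mul]
  ring

/-- `k` factors `x`, then factors `y` in the first half, and factors `c` in the second half. -/
def fm {X : Type*} (x y c : X) (k : ℕ) (l : Fin m) : X :=
  if 2 * l.val < m then (if l.val < k then x else y) else c

theorem fm_step {X : Type*} {x y c : X} {k : ℕ} (hk : 2 * k < m) (hk' : k < m) :
    fm (m := m) x y c k = Function.update (fm x y c k) ⟨k, hk'⟩ y := by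
  funext l
  by_cases hl : l = ⟨k, hk'⟩
  · subst hl
    rw [Function.update_self]
    unfold fm
    rw [if_pos hk, if_neg (lt_irrefl k)]
  · rw [Function.update_of_ne hl]

theorem fm_succ {X : Type*} {x y c : X} {k : ℕ} (hk : 2 * k < m) (hk' : k < m) :
    fm (m := m) x y c (k + 1) = Function.update (fm x y c k) ⟨k, hk'⟩ x := by
  funext l
  by_cases hl : l = ⟨k, hk'⟩
  · subst hl
    rw [Function.update_self]
    unfold fm
    rw [if_pos hk, if_pos (Nat.lt_succ_self k)]
  · rw [Function.update_of_ne hl]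
    have hl' : l.val ≠ k := fun h => hl (Fin.ext h)
    have e1 : (l.val < k + 1) = (l.val < k) := by
      apply propext
      omega
    simp only [fm, e1]

theorem fm_prop {X : Type*} {P : X → Prop} {x y c : X} (hx : P x) (hy : P y) (hc : P c) (k : ℕ)
    (l : Fin m) : P (fm x y c k l) := by
  unfold fm
  split_ifs <;> assumption

theorem fm_ev {X Y Z : Type*} (x y c : X → Y → Z) (k : ℕ) (i : X) (z : Y) :
    (fun l : Fin m => fm x y c k l i z) = fm (x i z) (y i z) (c i z) k := by
  funext l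
  unfold fm
  split_ifs <;> rfl

/-- `x`, `y`, then `c`. -/
def g3 {X : Type*} (x y c : X) (l : Fin m) : X :=
  if l.val = 0 then x else if l.val = 1 then y else c

theorem g3_prop {X : Type*} {P : X → Prop} {x y c : X} (hx : P x) (hy : P y) (hc : P c)
    (l : Fin m) : P (g3 x y c l) := by
  unfold g3
  split_ifs <;> assumption

theorem g3_upd {X : Type*} {x x' y c : X} (hm : 0 < m) :
    Function.update (g3 (m := m) x y c) ⟨0, hm⟩ x' = g3 x' y c := by
  funext l
  by_cases hl : l = ⟨0, hm⟩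
  · subst hl
    rw [Function.update_self]
    rfl
  · rw [Function.update_of_ne hl]
    have hl' : l.val ≠ 0 := fun h => hl (Fin.ext h)
    unfold g3
    rw [if_neg hl', if_neg hl']

theorem g3_ev {X Y : Type*} (x y c : X → Y → L2 d) (i : X) (z : Y) :
    (fun l : Fin m => g3 x y c l i z) = abcm (x i z) (y i z) (c i z) := by
  funext l
  unfold g3 abcm
  split_ifs <;> rfl

theorem upd_evm {X Y Z : Type*} (b : Fin m → X → Y → Z) (k₀ : Fin m) (γ : X → Y → Z) (i : X)
    (z : Y) : (fun k => (Function.update b k₀ γ) k i z) =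
      Function.update (fun k => b k i z) k₀ (γ i z) := by
  funext k
  by_cases hk : k = k₀
  · subst hk
    rw [Function.update_self, Function.update_self]
  · rw [Function.update_of_ne hk, Function.update_of_ne hk]

end pointwise

section glob
variable {m a : ℕ} {E Γ : Type} [TopologicalSpace E] [Group Γ] [MulAction Γ E]
  {S : Sheets (m + a) E Γ} {u : Fin S.N → Cm (m + a) → Matrix (Fin a) (Fin (m + a)) ℂ}

/-- `∫ b_1 ∧ ⋯ ∧ b_m ∧ θ_1 ∧ ⋯ ∧ θ_a`. -/
def WT (S : Sheets (m + a) E Γ) (u : Fin S.N → Cm (m + a) → Matrix (Fin a) (Fin (m + a)) ℂ)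
    (b : Fin m → Fin S.N → Cm (m + a) → L2 (m + a)) : ℂ :=
  S.int fun i z => Wt (fun k => b k i z) (u i z)

/-- The list with `θ`. -/
def app (u : Fin S.N → Cm (m + a) → Matrix (Fin a) (Fin (m + a)) ℂ)
    (b : Fin m → Fin S.N → Cm (m + a) → L2 (m + a)) :
    Fin (m + a) → Fin S.N → Cm (m + a) → L2 (m + a) :=
  Fin.append b fun j i z => thj (u i z) j

theorem app_ev (b : Fin m → Fin S.N → Cm (m + a) → L2 (m + a)) (i : Fin S.N) (z : Cm (m + a)) :
    (fun k => app u b k i z) = Fin.append (fun k => b k i z) (fun j => th (u i z j)) := by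
  funext k
  refine Fin.addCases (fun l => ?_) (fun j => ?_) k
  · rw [Fin.append_left, app, Fin.append_left]
  · rw [Fin.append_right, app, Fin.append_right]
    rfl

theorem WT_eq (b : Fin m → Fin S.N → Cm (m + a) → L2 (m + a)) : WT S u b = Wint S (app u b) := by
  unfold WT Wint
  congr 1
  funext i z
  rw [app_ev, Wt_W]

theorem bT_eq (hm : 2 ≤ m) (x y c : Fin S.N → Cm (m + a) → L2 (m + a)) :
    bT S u x y c = WT S u (g3 x y c) := by
  unfold bT WT
  congr 1
  funext i z
  rw [W4_eq hm, g3_ev]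

theorem tT_eq (hm : 0 < m) (x : Fin (m + a) → Fin S.N → Cm (m + a) → L2 (m + a)) :
    tT S u x = WT S u (fun k : Fin m => x ⟨k.val + a, by omega⟩) := by
  unfold tT WT
  congr 1
  funext i z
  rw [thl_eq hm]

theorem app_cl {b : Fin m → Fin S.N → Cm (m + a) → L2 (m + a)}
    (hθ : ∀ j, Cl2 S (fun i z => thj (u i z) j)) (hb : ∀ k, Cl2 S (b k)) (k : Fin (m + a)) :
    Cl2 S (app u b k) := by
  refine Fin.addCases (fun l => ?_) (fun j => ?_) k
  · rw [app, Fin.append_left]
    exact hb l
  · rw [app, Fin.append_right]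
    exact hθ j

theorem WT_perm (b : Fin m → Fin S.N → Cm (m + a) → L2 (m + a)) (σ : Equiv.Perm (Fin m)) :
    WT S u (fun k => b (σ k)) = WT S u b := by
  unfold WT
  congr 1
  funext i z
  exact Wt_perm (fun k => b k i z) _ σ

variable [ContinuousConstSMul Γ E] [Subsingleton Γ]

theorem WT_class (hθ : ∀ j, Cl2 S (fun i z => thj (u i z) j))
    {b b' : Fin m → Fin S.N → Cm (m + a) → L2 (m + a)} (h : ∀ k, Cl2 S (b k))
    (h' : ∀ k, Cl2 S (b' k)) (he : ∀ k, Exact S (fun i z => b k i z - b' k i z)) :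
    WT S u b = WT S u b' := by
  rw [WT_eq, WT_eq]
  refine wint_class (app_cl hθ h) (app_cl hθ h') fun k => ?_
  refine Fin.addCases (fun l => ?_) (fun j => ?_) k
  · simp only [app, Fin.append_left]
    exact he l
  · simp only [app, Fin.append_right]
    exact exact_self _

theorem WT_conj {b b' : Fin m → Fin S.N → Cm (m + a) → L2 (m + a)}
    (h : ∀ k i, ∀ z ∈ ball (0 : Cm (m + a)) 3, ∀ x y, b' k i z x y = conj (b k i z x y)) :
    WT S u b' = conj (WT S u b) :=
  int_conj _ _ fun i z hz => Wt_conj _ fun k x y => h k i z hz x y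

/-- **The relation between the `θ`.** -/
theorem WT_rel (hm : 0 < m) {E' Γ' : Type} [TopologicalSpace E'] [Group Γ'] [MulAction Γ' E']
    {S' : Sheets (m + a) E' Γ'} {u' : Fin S'.N → Cm (m + a) → Matrix (Fin a) (Fin (m + a)) ℂ}
    {κ κ' : ℝ} {τ : E → E'} (h : ThRel S u κ S' u' κ' τ)
    {b : Fin m → Fin S.N → Cm (m + a) → L2 (m + a)}
    {b' : Fin m → Fin S'.N → Cm (m + a) → L2 (m + a)} (hb : ∀ k, Cl2 S (b k))
    (hb' : ∀ k, Cl2 S' (b' k)) (hp : ∀ k, Pull2 S S' τ (b k) (b' k)) :
    (κ' : ℂ) * WT S u b = (κ : ℂ) * WT S' u' b' := by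
  let e : Fin (m + a) → Fin m := fun l => if h : a ≤ l.val then ⟨l.val - a, by omega⟩ else ⟨0, hm⟩
  have he : ∀ k : Fin m, e ⟨k.val + a, by omega⟩ = k := by
    intro k
    show (if h : a ≤ k.val + a then (⟨k.val + a - a, _⟩ : Fin m) else ⟨0, hm⟩) = k
    rw [dif_pos (by omega)]
    apply Fin.ext
    show k.val + a - a = k.val
    omega
  have h1 := h (fun l => b (e l)) (fun l => b' (e l)) (fun l => hb _) (fun l => hb' _)
    fun l => hp _
  rw [tT_eq hm, tT_eq hm] at h1
  simp only [he] at h1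
  exact h1

variable {s h : Fin S.N → Cm (m + a) → Matrix (Fin (m + a)) (Fin (m + a)) ℂ}
  {α : Fin S.N → Cm (m + a) → L2 (m + a)}

/-- **Replacement of one factor.** -/
theorem WT_rep (hθ : ∀ j, Cl2 S (fun i z => thj (u i z) j))
    {b : Fin m → Fin S.N → Cm (m + a) → L2 (m + a)} {k₀ : Fin m}
    (hb : ∀ k, k ≠ k₀ → Cl2 S (b k)) (hα : Cl2 S α) (hh : Cl2 S (ts h)) (hH : Harm S α h) {c : ℂ}
    {μ : Matrix (Fin a) (Fin a) ℂ}
    (hc : ∀ i, ∀ z ∈ ball (0 : Cm (m + a)) 3, h i z = c • s i z + uu μ (u i z))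
    (h0 : ∀ i, ∀ z ∈ ball (0 : Cm (m + a)) 3, ∀ x : L2 (m + a), (∀ p q, x p q = -x q p) →
      c20 x = 0 → Wt (Function.update (fun k => b k i z) k₀ x) (u i z) = 0) :
    WT S u (Function.update b k₀ α) = c * WT S u (Function.update b k₀ (ts s)) := by
  have e1 : ∀ γ : Fin S.N → Cm (m + a) → L2 (m + a), app u (Function.update b k₀ γ) =
      Function.update (app u b) (Fin.castAdd a k₀) γ := fun γ => (app_upd _ _ _ _).symm
  have h1 : Wint S (Function.update (app u b) (Fin.castAdd a k₀) α) =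
      Wint S (Function.update (app u b) (Fin.castAdd a k₀) (ts h)) := by
    refine rep (fun k hk => ?_) hα hh hH fun i z hz x hx h20 => ?_
    · revert hk
      refine Fin.addCases (fun l => ?_) (fun j => ?_) k
      · intro hk
        rw [app, Fin.append_left]
        exact hb l fun e => hk (by rw [e])
      · intro _
        rw [app, Fin.append_right]
        exact hθ j
    · rw [app_ev, app_upd, ← Wt_W]
      exact h0 i z hz x hx h20
  rw [WT_eq, e1, h1, ← e1, ← WT_eq]
  have h2 : WT S u (Function.update b k₀ (ts h)) =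
      S.int fun i z => c * Wt (fun k => (Function.update b k₀ (ts s)) k i z) (u i z) := by
    refine int_congr S fun i z hz => ?_
    rw [upd_evm, upd_evm]
    have h3 : ts h i z = c • ts s i z + tf (uu μ (u i z)) := by
      show tf (h i z) = c • tf (s i z) + tf (uu μ (u i z))
      rw [hc i z hz, tf_lin]
    rw [h3, Wt_lin, Wt_uu (u i z) (k₀ := k₀) μ (Function.update_self _ _ _), add_zero]
  rw [h2]
  unfold WT Sheets.int
  rw [Finset.mul_sum]
  exact Finset.sum_congr rfl fun i _ => integral_const_mul _ _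

/-- **(A1)** -/
theorem stepA {n : ℕ} (hm : m = 2 * n) (hθ : ∀ j, Cl2 S (fun i z => thj (u i z) j))
    (hα : Cl2 S α) (hs : Cl2 S (ts s)) (hcs : Cl2 S (cjs (ts s))) (hh : Cl2 S (ts h))
    (hH : Harm S α h) {c : ℂ} {μ : Matrix (Fin a) (Fin a) ℂ}
    (hc : ∀ i, ∀ z ∈ ball (0 : Cm (m + a)) 3, h i z = c • s i z + uu μ (u i z)) (k : ℕ)
    (hk : k ≤ n) : WT S u (fm (ts s) α (cjs (ts s)) 0) =
      c ^ k * WT S u (fm (ts s) α (cjs (ts s)) k) := by
  induction k with
  | zero => rw [pow_zero, one_mul]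
  | succ k ih =>
    have hk2 : 2 * k < m := by omega
    have hk' : k < m := by omega
    rw [ih (by omega), fm_succ hk2 hk']
    have h1 : WT S u (fm (ts s) α (cjs (ts s)) k) =
        c * WT S u (Function.update (fm (ts s) α (cjs (ts s)) k) ⟨k, hk'⟩ (ts s)) := by
      conv_lhs => rw [fm_step hk2 hk']
      refine WT_rep hθ (fun l _ => fm_prop hs hα hcs k l) hα hh hH hc fun i z hz x hx h20 => ?_
      refine Wt_type (u i z) (J := hf m) (card_hf hm) (fun _ => s i z) (fun l hl => ?_)
        (k₀ := ⟨k, hk'⟩) ?_ ?_ ?_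
      · have hl' : ¬ 2 * l.val < m := (Finset.mem_filter.1 hl).2
        have hlk : l ≠ ⟨k, hk'⟩ := by
          rintro rfl
          exact hl' hk2
        rw [Function.update_of_ne hlk]
        show fm (ts s) α (cjs (ts s)) k l i z = _
        unfold fm
        rw [if_neg hl']
        rfl
      · intro hl
        exact (Finset.mem_filter.1 hl).2 hk2
      · rw [Function.update_self]
        exact hx
      · rw [Function.update_self]
        exact h20
    rw [h1, pow_succ]
    ring

/-- **(A2)** -/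
theorem stepB (hm : 2 ≤ m) (hθ : ∀ j, Cl2 S (fun i z => thj (u i z) j))
    {w : Fin S.N → Cm (m + a) → Matrix (Fin (m + a)) (Fin (m + a)) ℂ} (hα : Cl2 S α)
    (hcs : Cl2 S (cjs (ts s))) (hw : Cl2 S (kw w)) (hh : Cl2 S (ts h)) (hH : Harm S α h) {c : ℂ}
    {μ : Matrix (Fin a) (Fin a) ℂ}
    (hc : ∀ i, ∀ z ∈ ball (0 : Cm (m + a)) 3, h i z = c • s i z + uu μ (u i z))
    (hsk : ∀ i, ∀ z ∈ ball (0 : Cm (m + a)) 3, (s i z).transpose = -s i z)
    (hpd : ∀ i, ∀ z ∈ ball (0 : Cm (m + a)) 3, (w i z).PosDef) :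
    bT S u α (cjs (ts s)) (kw w) = c * bT S u (ts s) (cjs (ts s)) (kw w) := by
  rw [bT_eq hm, bT_eq hm, ← g3_upd (x := α) (x' := ts s) (by omega : 0 < m),
    ← WT_rep hθ (fun l _ => g3_prop hα hcs hw l) hα hh hH hc, g3_upd]
  intro i z hz x hx h20
  rw [g3_ev]
  have h1 := Wt_zero hm (u i z) (hsk i z hz) (hpd i z hz) hx h20
  rw [← h1]
  congr 1
  exact g3_upd (m := m) (by omega : 0 < m)

end glob

end Vale.Agent.P281.H864.HKT
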